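import Vale.Agent.P218OP.End

/-! The deformations of the model. -/

open Set Filter Topology Complex
open scoped ContDiff Matrix RealInnerProductSpace

noncomputable section

set_option linter.unusedSectionVars false

namespace Vale.Agent.P218OP

open Vale.Agent.P218VA Vale.Agent.P218CO Vale.Agent.P218XI Vale.Agent.P218MP
open Vale.Agent.P272.K.LIN
open Vale.Agent.P218GA (E3 Model cx cx_dot crs cx_crs mat mat_orth cx_isometry)

section spread
variable {σ M : Type} [TopologicalSpace M] [ChartedSpace E2 M] [Fintype σ] {V : Type*}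
  [NormedAddCommGroup V] [NormedSpace ℝ V]

/-- functions on the ends, cut off below the level `a` -/
def spread (𝓔 : Ends σ M) (a : ℝ) (f : σ → ℝ × ℝ → V) (x : M) : V :=
  ∑ j, 𝓔.cut j a x • 𝓔.onEnd j (f j) x

variable {𝓔 : Ends σ M} {a : ℝ} {f : σ → ℝ × ℝ → V} {j : σ} {p : ℝ × ℝ} {x : M}

lemma spread_Y (hf : Per (f j)) (hp : 𝓔.w0 < p.1) :
    spread 𝓔 a f (𝓔.Y j p) = st a p.1 • f j p := by
  rw [spread, Ends.sum_of_mem (Ends.Y_mem j hp) fun j' h => by
    rw [Ends.onEnd_of_notMem h, smul_zero], Ends.cut_Y hp, Ends.onEnd_Y hf hp]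

lemma spread_below (hx : x ∈ 𝓔.below a) : spread 𝓔 a f x = 0 := by
  simp [spread, Ends.cut_below hx]

lemma reg_cases (hx : x ∈ 𝓔.reg) (a : ℝ) :
    x ∈ 𝓔.below a ∨ ∃ j, ∃ p : ℝ × ℝ, 𝓔.w0 < p.1 ∧ a ≤ p.1 ∧ x = 𝓔.Y j p := by
  rcases Ends.cases (𝓔 := 𝓔) x with h | ⟨j, h⟩ | ⟨j, p, hp, -, rfl⟩
  · exact .inl (Ends.below_of_core h a)
  · exact absurd h (hx j)
  · rcases lt_or_ge p.1 a with h | h
    · exact .inl ((Ends.Y_below hp).2 h)
    · exact .inr ⟨j, p, hp, h, rfl⟩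

lemma ckAt_spread [T2Space M] [RSm E2 M] (ha : 𝓔.w0 < a) (hf : ∀ j, Per (f j))
    (hs : ∀ j (p : ℝ × ℝ), 𝓔.w0 < p.1 → ContDiffAt ℝ ∞ (f j) p) (hx : x ∈ 𝓔.reg) :
    CkAt ∞ (spread 𝓔 a f) x := by
  rcases reg_cases hx a with h | ⟨j, p, hp, -, rfl⟩
  · refine CkAt.congr (X := fun _ => 0) (fun _ _ _ => contDiffAt_const) ?_
    filter_upwards [(Ends.isOpen_below ha).mem_nhds h] with z hz using spread_below hz
  · refine Ends.ckAt_Y le_rfl hp (ContDiffAt.congr_of_eventuallyEq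
      ((((contDiff_st a).comp contDiff_fst).contDiffAt).smul (hs j p hp)) ?_)
    filter_upwards [Ends.ev_w0 hp] with q hq using spread_Y (hf j) hq

end spread

lemma one_add_ne {t k : ℝ} {u : ℂ} (hk : |k| ≤ 1) (hu : ‖u‖ < 1) : 1 + (t + k * u : ℂ) ^ 2 ≠ 0 := by
  intro h
  have h1 := congrArg re h
  have h2 : |k * u.im| < 1 := by
    rw [abs_mul]
    exact (mul_le_of_le_one_left (abs_nonneg _) hk).trans_lt ((abs_im_le_norm u).trans_lt hu)
  simp [sq] at h1
  nlinarith [abs_lt.1 h2, mul_self_nonneg (t + k * u.re)]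

variable {S : Set E3} {w : E3 → ℝ} {δ C : ℝ} {ι κ M : Type} [TopologicalSpace M]
  [ChartedSpace E2 M] [Fintype ι] [Fintype κ] (m : Model S w δ C ι κ M)

/-- the directions of the tilts -/
def ax (k : ι × Fin 2) : E3 :=
  crs (m.Q k.1 (EuclideanSpace.single 2 1)) (m.Q k.1 (EuclideanSpace.single k.2.castSucc 1))

/-- the Cayley parameter of the cylindrical end `i` -/
def omv (i : ι) (B : ι × Fin 2 → ℂ) : C3 :=
  B (i, 0) • cx (ax m (i, 0)) + B (i, 1) • cx (ax m (i, 1))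

/-- the Cayley parameter of an end -/
def omE (B : ι × Fin 2 → ℂ) : ι ⊕ κ → C3 := Sum.elim (fun i => omv m i B) fun _ => 0

/-- the coefficients of the deformation -/
def coef (ε : ι ⊕ κ → Bool) (b : ℝ) (x : M) : Co (ι × Fin 2) :=
  (((ends m).core b x • cx (m.F x), (ends m).core b x • cx (m.nu x)),
    (spread (ends m) b (fun j p => (2 * rt p.1) • (fq m j).γ p.2) x,
      spread (ends m) b (fun j p => (2 * rt p.1) • (fq m j).n p.2) x),
    (spread (ends m) (b - 1) (fun j p => (tb m j p : ℂ)) x,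
      spread (ends m) (b - 1) (fun j p => ((sgn (ε j) * ks j p.1 : ℝ) : ℂ)) x),
    fun k => (ends m).cut (.inl k.1) (b + 1) x • cx (ax m k))

variable {m} {ε : ι ⊕ κ → Bool} {b : ℝ} {j : ι ⊕ κ} {p : ℝ × ℝ} {x : M} {u : ℂ} {B : ι × Fin 2 → ℂ}

lemma coef_Y (hp : m.w0 < p.1) : coef m ε b ((ends m).Y j p) =
    (((1 - st b p.1) • cx (m.F ((ends m).Y j p)), (1 - st b p.1) • cx (m.nu ((ends m).Y j p))),
      (st b p.1 • (2 * rt p.1) • (fq m j).γ p.2, st b p.1 • (2 * rt p.1) • (fq m j).n p.2),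
      (st (b - 1) p.1 • (tb m j p : ℂ), st (b - 1) p.1 • ((sgn (ε j) * ks j p.1 : ℝ) : ℂ)),
      fun k => (ends m).cut (.inl k.1) (b + 1) ((ends m).Y j p) • cx (ax m k)) := by
  rw [coef, Ends.core_Y hp, spread_Y (fun x θ => by simp only [(fq m j).γ_per]) hp,
    spread_Y (fun x θ => by simp only [(fq m j).n_per]) hp,
    spread_Y (fun x θ => by simp only [per_tb m j x θ]) hp, spread_Y (fun x θ => rfl) hp]

lemma tt_Y (hp : m.w0 < p.1) (h : b ≤ p.1) : tt (coef m ε b ((ends m).Y j p)) u = tE m ε j p u := by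
  rw [coef_Y hp, tt, tE, scl_eq, st_one (a := b - 1) (by linarith), tb]
  simp only [one_smul]
  push_cast
  ring

lemma X0_below (hx : x ∈ (ends m).below b) :
    X0 (coef m ε b x) u = cx (m.F x) + u • cx (m.nu x) := by
  simp [X0, coef, Ends.core_below hx, spread_below hx]

lemma XU_below (hx : x ∈ (ends m).below b) : XU (coef m ε b x) u = cx (m.nu x) := by
  simp [XU, coef, Ends.core_below hx, spread_below hx]

lemma om_below (hx : x ∈ (ends m).below (b + 1)) : om (coef m ε b x) B = 0 := by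
  simp [om, coef, Ends.cut_below hx]

lemma X0_Y (hp : m.w0 < p.1) (h : b ≤ p.1) : X0 (coef m ε b ((ends m).Y j p)) u =
    (1 - st b p.1) • (cx (m.F ((ends m).Y j p)) + u • cx (m.nu ((ends m).Y j p))) +
      st b p.1 • (fq m j).X p.1 p.2 (tE m ε j p u) := by
  rw [X0, tt_Y hp h, coef_Y hp, Frame.X_eq, Frame.u]
  ext i
  simp
  ring

lemma XU_Y (hp : m.w0 < p.1) (h : b ≤ p.1) : XU (coef m ε b ((ends m).Y j p)) u =
    (1 - st b p.1) • cx (m.nu ((ends m).Y j p)) +
      (st b p.1 * (sgn (ε j) * ks j p.1)) • (fq m j).Xt p.1 p.2 (tE m ε j p u) := by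
  rw [XU, tt_Y hp h, coef_Y hp, Xt_eq, Frame.v, st_one (a := b - 1) (by linarith)]
  ext i
  simp [d1]
  ring

lemma om_Y (hp : m.w0 < p.1) :
    om (coef m ε b ((ends m).Y j p)) B = st (b + 1) p.1 • omE m B j := by
  simp only [om, coef]
  rcases j with i | k
  · rw [Fintype.sum_prod_type, Finset.sum_eq_single i (fun i' _ h => by
      simp [Ends.cut_of_notMem (a := b + 1) (Ends.Y_notMem (𝓔 := ends m) (j := .inl i)
        (j' := .inl i') (by simpa using h.symm) hp)]) (by simp)]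
    simp only [Fin.sum_univ_two, Ends.cut_Y (𝓔 := ends m) hp, omE, omv, Sum.elim_inl, smul_add]
    rw [smul_comm (B _), smul_comm (B _)]
  · simp [omE, fun i => Ends.cut_of_notMem (a := b + 1) (Ends.Y_notMem (𝓔 := ends m)
      (j := .inr k) (j' := .inl i) (by simp) hp)]

lemma tE_zero : tE m ε j p 0 = tb m j p := by simp [tE, tb, scl_eq]

lemma X0_zero (hx : x ∈ m.reg) : X0 (coef m ε b x) 0 = cx (m.F x) := by
  rcases reg_cases (𝓔 := ends m) hx b with h | ⟨j, p, hp, h, rfl⟩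
  · simp [X0_below h]
  · rw [X0_Y hp h, tE_zero, ← F_Y m j hp, zero_smul, add_zero, ← add_smul, sub_add_cancel, one_smul]

lemma star_rsmul {V : Type*} [AddCommGroup V] [Module ℂ V] [StarAddMonoid V] [StarModule ℂ V]
    (c : ℝ) {v : V} (h : star v = v) : star (c • v) = c • v := by
  rw [← Complex.coe_smul, star_smul, h, RCLike.star_def, conj_ofReal]

lemma star_coef (hx : x ∈ m.reg) : star (coef m ε b x) = coef m ε b x := by
  have h1 : ∀ (c : ℝ) (v : E3), star (c • cx v) = c • cx v := fun c v => star_rsmul c (star_cx v)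
  have h2 : (star fun k : ι × Fin 2 => (ends m).cut (.inl k.1) (b + 1) x • cx (ax m k))
      = fun k => (ends m).cut (.inl k.1) (b + 1) x • cx (ax m k) := funext fun k => h1 _ _
  rcases reg_cases (𝓔 := ends m) hx (b - 1) with h | ⟨j, p, hp, -, rfl⟩
  · simp only [coef, spread_below h, spread_below (Ends.below_mono (by linarith : b - 1 ≤ b) h),
      Prod.star_def, h1, h2, star_zero]
  · rw [coef_Y hp]
    simp only [Prod.star_def, h1, h2]
    rw [star_rsmul, star_rsmul, star_rsmul _ (conj_ofReal _), star_rsmul _ (conj_ofReal _)]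
    · rw [star_smul, star_n, star_mul', star_rt, star_ofNat]
    · rw [star_smul, star_γ, star_mul', star_rt, star_ofNat]

lemma ax_dot (i : ι) (a c : Fin 2) :
    cx (ax m (i, a)) ⬝ᵥ cx (ax m (i, c)) = if a = c then 1 else 0 := by
  have h : ∀ a b : Fin 3, cx (m.Q i (EuclideanSpace.single a 1)) ⬝ᵥ
      cx (m.Q i (EuclideanSpace.single b 1)) = if a = b then 1 else 0 := fun a b => by
    rw [cx_dot, LinearIsometryEquiv.inner_map_map]
    fin_cases a <;> fin_cases b <;> simp [P218GA.inner3]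
  rw [ax, ax, cx_crs, cx_crs, cross_dot_cross, h, h, h, h]
  fin_cases a <;> fin_cases c <;> simp

lemma omv_dot (i : ι) : omv m i B ⬝ᵥ omv m i B = B (i, 0) ^ 2 + B (i, 1) ^ 2 := by
  simp [omv, ax_dot, sq]

lemma norm_omE (hB : ‖B‖ < 1) (j : ι ⊕ κ) : ‖omE m B j ⬝ᵥ omE m B j‖ ≤ 2 := by
  rcases j with i | k
  · have h := fun k => (norm_le_pi_norm B k).trans hB.le
    rw [omE, Sum.elim_inl, omv_dot]
    refine (norm_add_le _ _).trans ?_
    rw [norm_pow, norm_pow]
    nlinarith [h (i, 0), h (i, 1), norm_nonneg (B (i, 0)), norm_nonneg (B (i, 1))]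
  · simp [omE]

lemma four_add_ne {z : ℂ} (h : ‖z‖ ≤ 2) : 4 + z ≠ 0 := fun h0 => by
  rw [eq_neg_of_add_eq_zero_right h0] at h
  norm_num at h

lemma omE_ne (hB : ‖B‖ < 1) (j : ι ⊕ κ) : 4 + omE m B j ⬝ᵥ omE m B j ≠ 0 :=
  four_add_ne (norm_omE hB j)

lemma abs_sg_ks (hp : m.w0 < p.1) : |sgn (ε j) * ks j p.1| ≤ 1 := by
  have h1 := ks_pos j (pos_of_lt m hp)
  have h2 := ks_le j (m.one_le.trans hp.le)
  cases ε j <;> simpa [sgn, abs_of_pos h1]

lemma tE_ne (hp : m.w0 < p.1) (hu : ‖u‖ < 1) : 1 + tE m ε j p u ^ 2 ≠ 0 := by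
  have := one_add_ne (t := tb m j p) (abs_sg_ks (ε := ε) (j := j) hp) hu
  rwa [show (tb m j p + (sgn (ε j) * ks j p.1 : ℝ) * u : ℂ) = tE m ε j p u by
    rw [tE, tb, scl_eq]; push_cast; ring] at this

lemma ok_coef (hx : x ∈ m.reg) (hu : ‖u‖ < 1) (hB : ‖B‖ < 1) : Ok (coef m ε b x, u, B) := by
  rcases reg_cases (𝓔 := ends m) hx (b - 1) with h | ⟨j, p, hp, -, rfl⟩
  · refine ⟨by simp [tt, coef, spread_below h], ?_⟩
    simp [om_below (Ends.below_mono (by linarith : b - 1 ≤ b + 1) h)]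
  · refine ⟨?_, four_add_ne ?_⟩
    · have h1 := st_nonneg (b - 1) p.1
      have := one_add_ne (t := st (b - 1) p.1 * tb m j p)
        (k := st (b - 1) p.1 * (sgn (ε j) * ks j p.1)) (by
          rw [abs_mul, abs_of_nonneg h1]
          exact mul_le_one₀ (st_le_one _ _) (abs_nonneg _) (abs_sg_ks hp)) hu
      simpa [tt, coef_Y hp] using this
    · have h1 := st_nonneg (b + 1) p.1
      have h2 := st_le_one (b + 1) p.1
      simp only [om_Y hp, smul_dotProduct, dotProduct_smul, norm_smul, Real.norm_of_nonneg h1]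
      nlinarith [norm_omE (m := m) hB j, norm_nonneg (omE m B j ⬝ᵥ omE m B j), mul_nonneg h1 h1,
        mul_le_one₀ h2 h1 h2]

lemma om_cross (i : ι) (y : C3) :
    omv m i B ⨯₃ (mat (m.Q i) *ᵥ y) = mat (m.Q i) *ᵥ (skw (B (i, 0)) (B (i, 1)) *ᵥ y) := by
  have h : ∀ a : Fin 3, cx (m.Q i (EuclideanSpace.single a 1)) = mat (m.Q i) *ᵥ Pi.single a 1 :=
    fun a => by
      rw [cx_isometry]
      congr 1
      ext l
      fin_cases a <;> fin_cases l <;> simp [cx]
  have h2 : ∀ a b c : C3, (a ⨯₃ b) ⨯₃ c = (a ⬝ᵥ c) • b - (b ⬝ᵥ c) • a := fun a b c => by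
    ext l
    fin_cases l <;> simp [cross_apply, dot3] <;> ring
  simp only [omv, ax, cx_crs, map_add, map_smul, LinearMap.add_apply, LinearMap.smul_apply, h2, h,
    dot_rot (mat_orth _), ← Matrix.mulVec_smul, ← Matrix.mulVec_sub, ← Matrix.mulVec_add]
  congr 1
  ext l
  simp only [Matrix.mulVec, dot3]
  fin_cases l <;> simp [skw, sub_eq_add_neg]

lemma rot_omE (j : ι ⊕ κ) (y : C3) : rot (omE m B j) (rotM m j 0 *ᵥ y) = rotM m j B *ᵥ y := by
  rcases j with i | k
  · have h0 : cay 0 0 = 1 := by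
      ext a c
      fin_cases a <;> fin_cases c <;> simp [cay, skw]
    simp only [rotM, omE, Sum.elim_inl, Pi.zero_apply, h0, mul_one, rot, om_cross, omv_dot]
    rw [← Matrix.mulVec_mulVec, cay, Matrix.add_mulVec, Matrix.one_mulVec, Matrix.smul_mulVec,
      Matrix.add_mulVec, Matrix.smul_mulVec, ← Matrix.mulVec_mulVec, Matrix.mulVec_add,
      Matrix.mulVec_smul, Matrix.mulVec_add, Matrix.mulVec_smul, ← inv_div, add_div,
      div_self (by norm_num)]
  · simp [rotM, omE]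

lemma fq_R (j : ι ⊕ κ) (θ : ℝ) (t : ℂ) (y : C3) :
    (fq m j).R θ t *ᵥ y = rotM m j 0 *ᵥ ((fr m j).R θ t *ᵥ y) := by
  rcases j with i | k
  · have h0 : cay 0 0 = 1 := by
      ext a c
      fin_cases a <;> fin_cases c <;> simp [cay, skw]
    simp only [rotM, Sum.elim_inl, Pi.zero_apply, h0, mul_one]
    exact cylF.rot_R (mat_orth _) ..
  · simp [rotM, fq, fr]

lemma omE_smul (c : ℝ) (j : ι ⊕ κ) : omE m ((c : ℂ) • B) j = c • omE m B j := by
  rcases j with i | k
  · simp [omE, omv, smul_smul, ← Complex.coe_smul]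
  · simp [omE]

lemma rot_smul (o : C3) (c : ℂ) (X : C3) : rot o (c • X) = c • rot o X := by
  rw [← cay3_mulVec, ← cay3_mulVec, Matrix.mulVec_smul]

lemma XE_eq : XE m ε j p u B = rot (omE m B j) ((fq m j).X p.1 p.2 (tE m ε j p u)) := by
  rw [XE, ← rot_omE, Frame.X, Frame.X, fq_R]

lemma TE_eq : TE m ε j p u B = rot (omE m B j)
    ((sgn (ε j) * ks j p.1) • (fq m j).Xt p.1 p.2 (tE m ε j p u)) := by
  rw [TE, ← rot_omE, Frame.Xt, Frame.Xt, fq_R, ← Complex.coe_smul, rot_smul, scl_eq, mul_comm]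
  push_cast
  rfl

lemma per_XE (c : ℝ → ℂ) : Per fun p => XE m ε j p u (c p.1 • B) := fun x θ => by
  simp only [XE, Frame.X, tE, Frame.R_per, per_ub m j x θ]

lemma per_TE (c : ℝ → ℂ) : Per fun p => TE m ε j p u (c p.1 • B) := fun x θ => by
  simp only [TE, Frame.Xt, tE, Frame.R_per, per_ub m j x θ]

lemma blend {A Z : C3} (f : (ι × Fin 2 → ℂ) → C3) (hf : ∀ B, f B = rot (omE m B j) Z) (x : ℝ) :
    ((1 - st b x : ℝ) : ℂ) • A + ((st b x : ℝ) : ℂ) • f (((st (b + 1) x : ℝ) : ℂ) • B) =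
      rot (st (b + 1) x • omE m B j) ((1 - st b x) • A + st b x • Z) := by
  rw [hf, omE_smul]
  rcases le_total x (b + 1) with h | h
  · simp [st_zero h, ← Complex.coe_smul]
  · simp [st_one h]

/-- **The universal form of the configuration map.** -/
theorem Phi_eq (hx : x ∈ m.reg) : Phi m ε b x u B = Th (coef m ε b x, u, B) := by
  rcases reg_cases (𝓔 := ends m) hx b with h | ⟨j, p, hp, h, rfl⟩
  · simp [Phi, Th, X0_below h, om_below (Ends.below_mono (by linarith : b ≤ b + 1) h),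
      Ends.core_below h, Ends.cut_below h]
  · rw [Phi, Ends.sum_of_mem (Ends.Y_mem j hp) fun j' h => by
      rw [Ends.onEnd_of_notMem h, smul_zero], Ends.cut_Y hp, Ends.core_Y hp,
      Ends.onEnd_Y (per_XE fun x => (st (b + 1) x : ℝ)) hp, Th, om_Y hp, X0_Y hp h]
    exact blend _ (fun _ => XE_eq) _

theorem Tv_eq (hx : x ∈ m.reg) : Tv m ε b x u B = ThU (coef m ε b x, u, B) := by
  rcases reg_cases (𝓔 := ends m) hx b with h | ⟨j, p, hp, h, rfl⟩
  · simp [Tv, ThU, XU_below h, om_below (Ends.below_mono (by linarith : b ≤ b + 1) h),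
      Ends.core_below h, Ends.cut_below h]
  · rw [Tv, Ends.sum_of_mem (Ends.Y_mem j hp) fun j' h => by
      rw [Ends.onEnd_of_notMem h, smul_zero], Ends.cut_Y hp, Ends.core_Y hp,
      Ends.onEnd_Y (per_TE fun x => (st (b + 1) x : ℝ)) hp, ThU, om_Y hp, XU_Y hp h, mul_smul]
    exact blend _ (fun _ => TE_eq) _

variable [T2Space M] [RSm E2 M]

lemma CkAt.prod {G G' : Type*} [NormedAddCommGroup G] [NormedSpace ℝ G] [NormedAddCommGroup G']
    [NormedSpace ℝ G'] {k : WithTop ℕ∞} {f : M → G} {g : M → G'} (hf : CkAt k f x)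
    (hg : CkAt k g x) : CkAt k (fun z => (f z, g z)) x :=
  fun e he hx => (hf e he hx).prodMk (hg e he hx)

lemma ckAt_coef (hb : m.w0 + 1 < b) (hx : x ∈ m.reg) : CkAt ∞ (coef m ε b) x := by
  have h1 : ∀ {f : M → E3}, CkAt ∞ f x → CkAt ∞ (fun z => (ends m).core b z • cx (f z)) x :=
    fun hf e he hx' => (Ends.core_ck (𝓔 := ends m) (by change m.w0 < b; linarith) e he x hx').smul
      (cx.contDiff.contDiffAt.comp _ (hf e he hx'))
  have h2 : ∀ {f : ι ⊕ κ → ℝ → C3}, (∀ j, ContDiff ℝ ∞ (f j)) →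
      (∀ j θ, f j (θ + 2 * Real.pi) = f j θ) →
      CkAt ∞ (spread (ends m) b fun j p => (2 * rt p.1) • f j p.2) x := fun h h' =>
    ckAt_spread (by change m.w0 < b; linarith) (fun j x θ => by simp only [h']) (fun j p hp =>
      contDiffAt_csmul (contDiffAt_const.mul ((contDiffAt_rt (pos_of_lt m hp)).comp p
        contDiffAt_fst)) ((h j).contDiffAt.comp p contDiffAt_snd)) hx
  have h3 : (ends m).w0 < b - 1 := by change m.w0 < _; linarith
  refine CkAt.prod (CkAt.prod (h1 (m.ckAt_F hx)) (h1 (m.ckAt_nu hx))) (CkAt.prod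
    (CkAt.prod (h2 (fun j => (fq m j).γ_sm) fun j => (fq m j).γ_per)
      (h2 (fun j => (fq m j).n_sm) fun j => (fq m j).n_per)) (CkAt.prod (CkAt.prod
    (ckAt_spread h3 (fun j x θ => by simp only [per_tb m j x θ]) (fun j p hp => cd_tbc m j hp) hx)
    (ckAt_spread h3 (fun j x θ => rfl) (fun j p hp => ofRealCLM.contDiff.contDiffAt.comp p
      (contDiffAt_const.mul (cd_ks j (pos_of_lt m hp)))) hx)) fun e he hx' => ?_))
  exact contDiffAt_pi.2 fun k => (Ends.cut_ck (𝓔 := ends m) _ (by change m.w0 < _; linarith)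
    e he x hx').smul contDiffAt_const

end Vale.Agent.P218OP
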