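import Vale.Agent.P218OP.Cyl

/-! The operator of a conical end satisfies the hypotheses of the collar system. -/

open Set Filter Topology Complex
open scoped ContDiff

noncomputable section

namespace Vale.Agent.P218OP

open Vale.Agent.P218VA Vale.Agent.P218CO Vale.Agent.P218XI Vale.Agent.P218MP
open Vale.Agent.P218GA (E3 Model far ev_gt ev_far)
open Vale.Agent.P218EN (xf ef)
open Vale.Agent.P218CN (coneOp cOp cOp_E Ej EE a11 a12 a22 bb gg dd hh lam coneOp_base)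

/-- the first order part in normalised variables -/
def kB (c : ℂ) (z : (ℂ × ℂ) × ℂ × T3 ℂ) : ℂ :=
  z.2.1 * bb c z.1.1 z.1.2 z.2.2.1 z.2.2.2.2 z.2.2.2.1 0 -
    2 * gg c z.1.1 z.2.2.1 * z.2.2.2.1 * dd c z.1.1 z.2.2.1 z.2.2.2.2 z.2.2.2.1

/-- the operator in normalised variables -/
def kE (c : ℂ) (z : (ℂ × ℂ) × ℂ × J2 ℂ) : ℂ :=
  z.2.1 * (a11 c z.1.1 z.2.2.1.1 z.2.2.1.2.2 * z.2.2.2.1 +
    a12 c z.1.1 z.2.2.1.1 z.2.2.1.2.2 z.2.2.1.2.1 * z.2.2.2.2.1 +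
    a22 c z.1.1 z.2.2.1.1 z.2.2.1.2.1 * z.2.2.2.2.2) + kB c (z.1, z.2.1, z.2.2.1)

lemma cd_kB (c : ℂ) : ContDiff ℂ 2 (kB c) := by
  unfold kB bb dd gg hh lam
  fun_prop

lemma cd_kE (c : ℂ) : ContDiff ℂ 2 (kE c) := by
  unfold kE kB a11 a12 a22 bb dd gg hh lam
  fun_prop

lemma hasDerivAt_cub (c : ℂ) :
    HasDerivAt (fun t : ℂ => -(2 * c ^ 3 * (t * (1 + 4 * t ^ 2)))) (-(2 * c ^ 3)) 0 := by
  have h := (hasDerivAt_id (0 : ℂ)).mul ((((hasDerivAt_id (0 : ℂ)).pow 2).const_mul 4).const_add 1)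
  refine (h.const_mul (2 * c ^ 3)).neg.congr_deriv ?_
  simp

lemma dkB_Z (c : ℂ) (k : ℂ × ℂ) : fderiv ℂ (kB c) (k, 0) (0, 0, (0, 1, 0)) = -(2 * c ^ 3) := by
  refine fderiv_line ((cd_kB c).differentiable two_ne_zero _) ?_
  refine (hasDerivAt_cub c).congr_of_eventuallyEq (Eventually.of_forall fun t => ?_)
  simp [kB, gg, dd, lam]
  ring

lemma dkB_0 (c : ℂ) (k : ℂ × ℂ) : fderiv ℂ (kB c) (k, 0) (0, 0, (1, 0, 0)) = 0 := by
  refine fderiv_line ((cd_kB c).differentiable two_ne_zero _) ?_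
  refine (hasDerivAt_const (0 : ℂ) (0 : ℂ)).congr_of_eventuallyEq (Eventually.of_forall fun t => ?_)
  simp [kB]

lemma dkE_Z (c : ℂ) (k : ℂ × ℂ) :
    fderiv ℂ (kE c) (k, 0) (0, 0, ((0, 1, 0), 0)) = -(2 * c ^ 3) := by
  refine fderiv_line ((cd_kE c).differentiable two_ne_zero _) ?_
  refine (hasDerivAt_cub c).congr_of_eventuallyEq (Eventually.of_forall fun t => ?_)
  simp [kE, kB, gg, dd, lam]
  ring

lemma dkE_0 (c : ℂ) (k : ℂ × ℂ) : fderiv ℂ (kE c) (k, 0) (0, 0, ((1, 0, 0), 0)) = 0 := by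
  refine fderiv_line ((cd_kE c).differentiable two_ne_zero _) ?_
  refine (hasDerivAt_const (0 : ℂ) (0 : ℂ)).congr_of_eventuallyEq (Eventually.of_forall fun t => ?_)
  simp [kE, kB]

lemma isCompact_range_per {A : Type*} [TopologicalSpace A] {f : ℝ → A} (hf : Continuous f)
    (hp : ∀ θ, f (θ + 2 * Real.pi) = f θ) : IsCompact (range f) :=
  (show Function.Periodic f (2 * Real.pi) from hp).compact_of_continuous
    (by positivity) hf

lemma dβ_per (F : Frame) (θ : ℝ) : deriv F.β (θ + 2 * Real.pi) = deriv F.β θ := by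
  rw [← deriv_comp_add_const, funext F.β_per]

variable {S : Set E3} {w : E3 → ℝ} {δ C : ℝ} {ι κ M : Type} [TopologicalSpace M]
  [ChartedSpace E2 M] (m : Model S w δ C ι κ M) (j : κ)

/-- the rotation of the normal of the link, and its derivative -/
def bk (θ : ℝ) : ℂ × ℂ := ((coneF (m.L j)).β θ, deriv (coneF (m.L j)).β θ)

/-- the jet of the end -/
def jk : ℝ × ℝ → J2 ℂ := pj fun p => (m.t j p : ℂ)

/-- the normalised jet of the end -/
def zk (p : ℝ × ℝ) : ℂ × J2 ℂ := (xf p.1, n2 (2 * p.1) (4 * p.1 ^ 2) (2 * p.1) (jk m j p))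

lemma sm_bk : ContDiff ℝ ∞ (bk m j) :=
  (coneF (m.L j)).β_sm.prodMk (contDiff_infty_iff_deriv.1 (coneF (m.L j)).β_sm).2

lemma per_bk (θ : ℝ) : bk m j (θ + 2 * Real.pi) = bk m j θ := by
  rw [bk, bk, (coneF (m.L j)).β_per, dβ_per]

lemma jk_eq {p : ℝ × ℝ} (hp : m.w0 < p.1) : jk m j p = tj (Tt m j) p := (rtow_cone m j).pj_eq hp

lemma sm_jk {p : ℝ × ℝ} (hp : m.w0 < p.1) : ContDiffAt ℝ ∞ (jk m j) p :=
  ((rtow_cone m j).sm_tj hp).congr_of_eventuallyEq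
    ((continuous_fst.continuousAt.eventually (lt_mem_nhds hp)).mono fun _ hq => jk_eq m j hq)

lemma per_jk : Per (jk m j) := per_pj ((rtow_cone m j).per 0 0)

lemma tendsto_zk : Tendsto (zk m j) far (𝓝 0) := by
  have h := rtow_cone m j
  have h0 : ∀ a b, Tendsto (Tt m j a b) far (𝓝 0) := fun a b => by
    simpa using h.lim' 1 a b 0 (Nat.zero_le _)
  have h1 : ∀ a b, 1 ≤ a → Tendsto (fun p => 2 * (p.1 : ℂ) * Tt m j a b p) far (𝓝 0) :=
    fun a b ha => by simpa using h.lim' 2 a b 1 ha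
  have h2 := tendsto_xf.prodMk_nhds
    (((h0 0 0).prodMk_nhds ((h1 1 0 le_rfl).prodMk_nhds (h0 0 1))).prodMk_nhds
      ((h.lim' 4 2 0 2 le_rfl).prodMk_nhds ((h1 1 1 le_rfl).prodMk_nhds (h0 0 2))))
  refine h2.congr' ?_
  filter_upwards [ev_gt m.w0] with p hp
  simp [zk, jk_eq m j hp, tj]

lemma lim_k {Z Y : Type*} [TopologicalSpace Z] [TopologicalSpace Y] {Φ : (ℂ × ℂ) × Z → Y}
    (hΦ : Continuous Φ) {z0 : Z} {L : Y} (h0 : ∀ k, Φ (k, z0) = L) {z : ℝ × ℝ → Z}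
    (hz : Tendsto z far (𝓝 z0)) : Tendsto (fun p => Φ (bk m j p.2, z p)) far (𝓝 L) :=
  tendsto_unif (isCompact_range_per (sm_bk m j).continuous (per_bk m j)) hΦ h0
    (fun _ => mem_range_self _) hz

lemma coneOp_L {p : ℝ × ℝ} (hp : 0 < p.1) (v : J2 ℂ) : (coneOp m j).L p v =
    2 * p.1 * fderiv ℂ (kE (m.L j).c) (bk m j p.2, zk m j p)
      (0, 0, n2 (2 * p.1) (4 * p.1 ^ 2) (2 * p.1) v) := by
  have hx := xf_eq hp
  have e : (coneOp m j).E p = fun k => (2 * p.1 : ℂ) * kE (m.L j).c ((bk m j p.2, zk m j p) +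
      ((ContinuousLinearMap.inr ℂ _ _).comp ((ContinuousLinearMap.inr ℂ _ _).comp
        (n2 (2 * p.1) (4 * p.1 ^ 2) (2 * p.1)))) k) := by
    ext k
    have e1 : ∀ y : J2 ℂ, Ej (m.L j).c (bk m j p.2).1 (bk m j p.2).2 p.1 y = (2 * p.1 : ℂ) *
        kE (m.L j).c (bk m j p.2, xf p.1, n2 (2 * p.1) (4 * p.1 ^ 2) (2 * p.1) y) := fun y => by
      simp only [Ej, EE, kE, kB, n2_apply, ← mul_assoc, mul_add, mul_sub, hx, one_mul, bb]
      ring
    rw [coneOp, cOp_E]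
    refine (e1 _).trans ?_
    simp [zk, jk, map_add, -n2_apply]
  have hd := (cd_kE (m.L j).c).differentiable two_ne_zero
  rw [EndOp.L, e, fderiv_const_mul (by fun_prop), smul_apply, fderiv_aff hd]
  rfl

lemma coneOp_db {p : ℝ × ℝ} (hp : 0 < p.1) (v : T3 ℂ) : fderiv ℂ ((coneOp m j).b p) 0 v =
    2 * p.1 * fderiv ℂ (kB (m.L j).c) (bk m j p.2, (zk m j p).1, (zk m j p).2.1)
      (0, 0, n1 (2 * p.1) v) := by
  have hx := xf_eq hp
  have e : (coneOp m j).b p = fun k => (2 * p.1 : ℂ) * kB (m.L j).c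
      ((bk m j p.2, (zk m j p).1, (zk m j p).2.1) + ((ContinuousLinearMap.inr ℂ _ _).comp
        ((ContinuousLinearMap.inr ℂ _ _).comp (n1 (2 * p.1)))) k) := by
    ext k
    have e1 : ∀ y : T3 ℂ, bb ((m.L j).c : ℂ) (bk m j p.2).1 (bk m j p.2).2 y.1 y.2.2
        (2 * p.1 * y.2.1) (4 * p.1 ^ 2 * y.2.1) = (2 * p.1 : ℂ) *
        kB (m.L j).c (bk m j p.2, xf p.1, n1 (2 * p.1) y) := fun y => by
      simp only [kB, n1_apply, ← mul_assoc, mul_sub, hx, one_mul, bb]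
      ring
    refine (e1 _).trans ?_
    simp [zk, jk, mul_add]
  have hd := (cd_kB (m.L j).c).differentiable two_ne_zero
  rw [e, fderiv_const_mul (by fun_prop), smul_apply, fderiv_aff hd]
  rfl

lemma coneOp_a0 (p : ℝ × ℝ) : (coneOp m j).a p 0 =
    (4 * p.1 ^ 2 * a11 ((m.L j).c : ℂ) (bk m j p.2).1 (zk m j p).2.1.1 (zk m j p).2.1.2.2,
      2 * p.1 * a12 ((m.L j).c : ℂ) (bk m j p.2).1 (zk m j p).2.1.1 (zk m j p).2.1.2.2
        (zk m j p).2.1.2.1,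
      a22 ((m.L j).c : ℂ) (bk m j p.2).1 (zk m j p).2.1.1 (zk m j p).2.1.2.1) := by
  simp [coneOp, cOp, zk, jk, bk]

lemma re_four_mul (x : ℝ) (z : ℂ) : (4 * x ^ 2 * z).re = 4 * x ^ 2 * z.re := by
  rw [show (4 * x ^ 2 : ℂ) = ((4 * x ^ 2 : ℝ) : ℂ) by push_cast; rfl, re_ofReal_mul]

theorem cone_good : ∃ s, m.w0 ≤ s ∧ (coneOp m j).Good s ∧ (coneOp m j).Ext s := by
  have hc := (m.L j).c_pos
  have hz := tendsto_zk m j
  have hz1 : Tendsto (fun p => ((zk m j p).1, (zk m j p).2.1)) far (𝓝 0) :=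
    ((by fun_prop : Continuous fun z : ℂ × J2 ℂ => (z.1, z.2.1)).tendsto 0).comp hz
  have cB := fun e => ((cd_kB (m.L j).c).continuous_fderiv two_ne_zero).clm_apply
    (continuous_const (y := e))
  have cE := fun e => ((cd_kE (m.L j).c).continuous_fderiv two_ne_zero).clm_apply
    (continuous_const (y := e))
  have b1 := lim_k m j (cB _) (dkB_Z _) hz1
  have b0 := lim_k m j (cB _) (dkB_0 _) hz1
  have e1 := lim_k m j (cE _) (dkE_Z _) hz
  have e0 := lim_k m j (cE _) (dkE_0 _) hz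
  have l1 := lim_k m j (Φ := fun z : (ℂ × ℂ) × ℂ × J2 ℂ =>
    a11 ((m.L j).c : ℂ) z.1.1 z.2.2.1.1 z.2.2.1.2.2) (by unfold a11 gg lam; fun_prop)
    (L := ((2 * (m.L j).c ^ 3 : ℝ) : ℂ)) (fun k => by simp [a11, gg, lam]; ring) hz
  have l2 := lim_k m j (Φ := fun z : (ℂ × ℂ) × ℂ × J2 ℂ =>
    a12 ((m.L j).c : ℂ) z.1.1 z.2.2.1.1 z.2.2.1.2.2 z.2.2.1.2.1) (by unfold a12 gg lam; fun_prop)
    (L := 0) (fun k => by simp [a12]) hz
  have l3 := lim_k m j (Φ := fun z : (ℂ × ℂ) × ℂ × J2 ℂ =>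
    a22 ((m.L j).c : ℂ) z.1.1 z.2.2.1.1 z.2.2.1.2.1) (by unfold a22 gg lam; fun_prop)
    (L := ((2 * (m.L j).c : ℝ) : ℂ)) (fun k => by simp [a22, gg, lam]) hz
  rw [show -(2 * ((m.L j).c : ℂ) ^ 3) = ((-(2 * (m.L j).c ^ 3) : ℝ) : ℂ) by push_cast; rfl] at b1 e1
  generalize hcc : (m.L j).c = c at hc b1 b0 e1 e0 l1 l2 l3
  have c2 : 0 < c ^ 2 := by positivity
  have c3 : 0 < c ^ 3 := by positivity
  obtain ⟨s, hs⟩ := exists_level ((ev_gt (max m.w0 1000)).and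
    (((ev_lt_re l1 (r := c ^ 3) (by rw [ofReal_re]; linarith)).and
      (ev_re_lt l1 (r := 3 * c ^ 3) (by rw [ofReal_re]; linarith))).and
    (((ev_lt_re l2 (r := -c ^ 2) (by simpa)).and (ev_re_lt l2 (r := c ^ 2) (by simpa))).and
    ((ev_lt_re l3 (r := c) (by rw [ofReal_re]; linarith)).and
    (((ev_re_lt b1 (r := 0) (by rw [ofReal_re]; linarith)).and
      (ev_re_lt b0 (r := c ^ 3) (by simpa))).and
    ((ev_re_lt e1 (r := -c ^ 3) (by rw [ofReal_re]; linarith)).and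
      (ev_re_lt e0 (r := c ^ 3) (by simpa))))))))
  subst hcc
  dsimp only at hs
  have sm : ∀ p : ℝ × ℝ, max s m.w0 < p.1 → ContDiffAt ℝ 2
      (fun q : ℝ × ℝ => (((q.1 : ℂ), bk m j q.2), (jk m j q).1)) p := fun p hp =>
    (((ofRealCLM.contDiff.contDiffAt.comp p contDiffAt_fst).prodMk
      ((sm_bk m j).contDiffAt.comp p contDiffAt_snd)).prodMk
        (sm_jk m j ((le_max_right _ _).trans_lt hp)).fst).of_le two_le_inf
  have ha := fun p hp => mix_of (Θ := fun z : ((ℂ × ℂ × ℂ) × T3 ℂ) × T3 ℂ =>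
    ((4 * z.1.1.1 ^ 2 * a11 ((m.L j).c : ℂ) z.1.1.2.1 (z.1.2 + z.2).1 (z.1.2 + z.2).2.2,
      2 * z.1.1.1 * a12 ((m.L j).c : ℂ) z.1.1.2.1 (z.1.2 + z.2).1 (z.1.2 + z.2).2.2
        (2 * z.1.1.1 * (z.1.2 + z.2).2.1),
      a22 ((m.L j).c : ℂ) z.1.1.2.1 (z.1.2 + z.2).1 (2 * z.1.1.1 * (z.1.2 + z.2).2.1)) : T3 ℂ))
    (by unfold a11 a12 a22 gg lam; fun_prop) (sm p hp)
  have hb := fun p hp => mix_of (Θ := fun z : ((ℂ × ℂ × ℂ) × T3 ℂ) × T3 ℂ =>
    bb ((m.L j).c : ℂ) z.1.1.2.1 z.1.1.2.2 (z.1.2 + z.2).1 (z.1.2 + z.2).2.2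
      (2 * z.1.1.1 * (z.1.2 + z.2).2.1) (4 * z.1.1.1 ^ 2 * (z.1.2 + z.2).2.1))
    (by unfold bb dd gg hh lam; fun_prop) (sm p hp)
  have hj := per_jk m j
  have hr : ∀ p, star (jk m j p) = jk m j p := fun p => star_cj_ofReal _ _ _ p
  have hk : ∀ p (k : T3 ℂ), star k = k → starRingEnd ℂ ((jk m j p).1 + k).1 = ((jk m j p).1 + k).1 ∧
      starRingEnd ℂ ((jk m j p).1 + k).2.1 = ((jk m j p).1 + k).2.1 ∧
      starRingEnd ℂ ((jk m j p).1 + k).2.2 = ((jk m j p).1 + k).2.2 := fun p k hk => by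
    have h1 : star ((jk m j p).1 + k) = (jk m j p).1 + k := by
      rw [star_add, hk, ← Prod.fst_star, hr]
    exact ⟨congrArg (·.1) h1, congrArg (·.2.1) h1, congrArg (·.2.2) h1⟩
  unfold jk at hj hk
  have hg : (coneOp m j).Good (max s m.w0) := by
    refine ⟨fun x θ => by simp only [coneOp, cOp, hj x θ, Frame.β_per],
      fun x θ => by simp only [coneOp, cOp, hj x θ, Frame.β_per, dβ_per],
      fun x θ => by simp only [coneOp, cOp, hj x θ], fun p hp => (ha p hp).1,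
      fun p hp => (hb p hp).1, fun p hp => (ha p hp).2, fun p hp => (hb p hp).2,
      fun p hp => (sm_jk m j ((le_max_right _ _).trans_lt hp)).snd.of_le one_le_inf,
      fun p hp => coneOp_base m j ((le_max_right _ _).trans_lt hp), fun p k h => ?_,
      fun p k h => ?_, fun p => congrArg Prod.snd (hr p), fun p hp => ?_, fun p hp => ?_,
      fun p hp => ?_⟩
    · obtain ⟨h1, h2, h3⟩ := hk p k h
      simp only [coneOp, cOp, Prod.star_def, RCLike.star_def, map_mul, map_pow, P218CN.map_a11,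
        P218CN.map_a12, P218CN.map_a22, conj_ofReal, coneF_β, h1, h2, h3, map_ofNat]
    · obtain ⟨h1, h2, h3⟩ := hk p k h
      simp only [coneOp, cOp, RCLike.star_def, map_mul, map_pow, P218CN.map_bb, conj_ofReal,
        coneF_β, coneF_dβ, h1, h2, h3, map_ofNat]
    · obtain ⟨a0, ⟨a1, -⟩, ⟨a2, a3⟩, a4, -⟩ := hs p ((le_max_left _ _).trans_lt hp)
      have a5 := (le_max_right _ _).trans_lt a0
      simp only [coneOp_a0, re_two_mul, re_four_mul]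
      have a6 := mul_lt_mul'' a1 a4 c3.le hc.le
      have a7 := sq_lt_sq' a2 a3
      have a8 : 0 < p.1 ^ 2 := by positivity
      exact ⟨mul_pos (by positivity) (c3.trans a1), by nlinarith [mul_pos c2 c2]⟩
    · obtain ⟨a0, -, -, -, ⟨a1, -⟩, -⟩ := hs p ((le_max_left _ _).trans_lt hp)
      have a5 := (le_max_right _ _).trans_lt a0
      have e : ((0 : ℂ × ℂ), (0 : ℂ), n1 (2 * p.1) (0, 1, 0))
        = (2 * p.1 : ℂ) • (0, 0, (0, 1, 0)) := by simp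
      rw [coneOp_db m j (by linarith), e, map_smul, smul_eq_mul, re_two_mul, re_two_mul]
      exact mul_nonpos_of_nonneg_of_nonpos (by linarith)
        (mul_nonpos_of_nonneg_of_nonpos (by linarith) a1.le)
    · obtain ⟨a0, ⟨a1, -⟩, -, -, ⟨-, a2⟩, -⟩ := hs p ((le_max_left _ _).trans_lt hp)
      have a5 := (le_max_right _ _).trans_lt a0
      have e : ((0 : ℂ × ℂ), (0 : ℂ), n1 (2 * p.1) (1, 0, 0)) = (0, 0, (1, 0, 0)) := by simp
      have hp0 : 0 < p.1 := by linarith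
      rw [coneOp_db m j hp0, e, coneOp_a0, re_two_mul, re_four_mul]
      nlinarith [mul_lt_mul_of_pos_left a1 (mul_pos hp0 hp0), mul_lt_mul_of_pos_left a2 hp0,
        mul_lt_mul_of_pos_left a5 (mul_pos hp0 c3), mul_pos hp0 c3]
  refine ⟨max s m.w0, le_max_right _ _, hg, fun p hp => ?_⟩
  obtain ⟨a0, ⟨-, a1⟩, -, -, -, a2, a3⟩ := hs p ((le_max_left _ _).trans_lt hp)
  have a5 := (le_max_right _ _).trans_lt a0
  have hp0 : 0 < p.1 := by linarith
  have f1 : ((0 : ℂ × ℂ), (0 : ℂ), n2 (2 * p.1) (4 * p.1 ^ 2) (2 * p.1) ((0, 1, 0), 0))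
      = (2 * p.1 : ℂ) • (0, 0, ((0, 1, 0), 0)) := by simp
  have f0 : ((0 : ℂ × ℂ), (0 : ℂ), n2 (2 * p.1) (4 * p.1 ^ 2) (2 * p.1) ((1, 0, 0), 0))
      = (0, 0, ((1, 0, 0), 0)) := by simp
  rw [L_hess (diff_E hg hp), coneOp_L m j hp0, coneOp_L m j hp0, f1, f0, map_smul, smul_eq_mul,
    re_two_mul, re_two_mul, re_two_mul, coneOp_a0]
  simp only [pair, mul_one, mul_zero, add_zero, re_four_mul]
  have p2 := mul_pos hp0 hp0
  have p3 := mul_pos p2 hp0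
  nlinarith [mul_lt_mul_of_pos_left a1 p2, mul_lt_mul_of_pos_left a2 p3,
    mul_lt_mul_of_pos_left a3 p3, mul_lt_mul_of_pos_left a5 (mul_pos p2 c3), mul_pos p2 c3]

/-- all the ends satisfy the hypotheses of the collar system above some level -/
theorem end_good [Finite ι] [Finite κ] :
    ∃ s, m.w0 ≤ s ∧ ∀ j, (endOp m j).Good s ∧ (endOp m j).Ext s := by
  have h : ∀ j, ∃ s, (endOp m j).Good s ∧ (endOp m j).Ext s := fun j => by
    cases j with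
    | inl i => exact (cyl_good m i).imp fun _ h => h.2
    | inr j => exact (cone_good m j).imp fun _ h => h.2
  choose s hs using h
  obtain ⟨b, hb⟩ := (finite_range s).bddAbove
  exact ⟨max b m.w0, le_max_right _ _, fun j =>
    have h1 := (hb (mem_range_self j)).trans (le_max_left b m.w0)
    ⟨(hs j).1.mono h1, ext_mono (hs j).2 h1⟩⟩

end Vale.Agent.P218OP
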