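import Vale.Agent.P218OP.Nj
import Vale.Agent.P218OP.Cone
import Vale.Agent.P218GC.Ends

/-! The geometric operator satisfies the hypotheses of the collar system. -/

open Set Filter

noncomputable section

namespace Vale.Agent.P218OP

open Vale.Agent.P218CO Vale.Agent.P218GC
open Vale.Agent.P218VA (E2)
open Vale.Agent.P272.K.LIN (RSm)
open Vale.Agent.P218GA (E3 Model)

variable {S : Set E3} {w : E3 → ℝ} {δ C : ℝ} {ι κ M : Type} [TopologicalSpace M]
  [ChartedSpace E2 M] [Fintype ι] [Fintype κ] [T2Space M] [RSm E2 M] [CompactSpace M]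
  (m : Model S w δ C ι κ M)

/-- the geometric operator -/
def theOp (ε : ι ⊕ κ → Bool) (a : ℝ) : CoreOp (ι ⊕ κ) (ι × Fin 2) M :=
  geoOp m ε a (endOp m) (Nj m ε a) (geoG m ε)

variable {m} in
theorem good_theOp {ε : ι ⊕ κ → Bool} {a s : ℝ} (ha : m.w0 + 1 < a) (hG : PosG m a)
    (ho : Orient m ε a) (hs : a < s) (he : ∀ j, (endOp m j).Good s) : (theOp m ε a).Good s :=
  have h0 : m.w0 < a := by linarith
  good_of ha ho (h0.trans hs)
    (fun j _ hp _ _ hU h1 hB => geoN_Y m ε j h0 (by linarith) hU h1 hB)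
    (fun j _ hp => contAt_geoG m ε j h0 hG (by linarith))
    (fun j p hp => by
      obtain ⟨r, hr, e⟩ := geoG_pos m ε j h0 hG (p := p) (by linarith)
      rwa [e, Complex.ofReal_re])
    fun j => good_orient (he j) _

/-- **One orientation works for all large levels.** -/
theorem geo_good : ∃ ε : ι ⊕ κ → Bool, ∀ᶠ a in atTop, m.w0 + 1 < a ∧ Orient m ε a ∧
    ∀ s, a < s → (theOp m ε a).Good s ∧ ∀ j, ((theOp m ε a).op j).Ext s := by
  obtain ⟨b, hb, hG⟩ := exists_posG m
  obtain ⟨ε, hε⟩ := exists_orient m hb hG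
  obtain ⟨s0, -, h0⟩ := end_good m
  refine ⟨ε, ?_⟩
  filter_upwards [eventually_ge_atTop b, eventually_ge_atTop s0, eventually_gt_atTop (m.w0 + 1)]
    with a h1 h2 h3
  have ho := Orient.mono m ε hε h1
  exact ⟨h3, ho, fun s hs => ⟨good_theOp h3 (hG.mono m h1) ho hs fun j =>
    (h0 j).1.mono (h2.trans hs.le), fun j => ext_orient ((h0 j).1.mono (h2.trans hs.le))
      (ext_mono (h0 j).2 (h2.trans hs.le)) _⟩⟩

end Vale.Agent.P218OP
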