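import Vale.Agent.P218OP.Def

/-! The operator of a cylindrical end satisfies the hypotheses of the collar system. -/

open Set Filter Topology Complex
open scoped ContDiff

noncomputable section

namespace Vale.Agent.P218OP

open Vale.Agent.P218VA Vale.Agent.P218CO Vale.Agent.P218XI Vale.Agent.P218MP
open Vale.Agent.P218GA (E3 Model far ev_gt ev_far)
open Vale.Agent.P218EN (pa11 pa12 pa22 pb pb0 pE xf ef)

lemma mix_of {A V W : Type*} [NormedAddCommGroup A] [NormedSpace ℂ A] [NormedAddCommGroup V]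
    [NormedSpace ℂ V] [NormedAddCommGroup W] [NormedSpace ℂ W] {Θ : A × V → W}
    (hΘ : ContDiff ℂ 2 Θ) {c : ℝ × ℝ → A} {p : ℝ × ℝ} (hc : ContDiffAt ℝ 2 c p) :
    Mix (fun q : (ℝ × ℝ) × V => Θ (c q.1, q.2)) (p, 0) ∧
      ContDiffAt ℝ 2 (fun q : (ℝ × ℝ) × V => Θ (c q.1, q.2)) (p, 0) :=
  ⟨((Mix.fst (p := (p, (0 : V))) (hc.of_le (by norm_num))).prodMk Mix.snd).comp
      (hΘ.of_le (by norm_num)).contDiffAt,
    (hΘ.restrict_scalars ℝ).contDiffAt.comp _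
      ((ContDiffAt.comp (g := c) (p, (0 : V)) hc contDiffAt_fst).prodMk contDiffAt_snd)⟩

lemma ev_re_lt {X : Type*} {l : Filter X} {f : X → ℂ} {c : ℂ} (h : Tendsto f l (𝓝 c)) {r : ℝ}
    (hr : c.re < r) : ∀ᶠ p in l, (f p).re < r :=
  ((continuous_re.tendsto c).comp h).eventually_lt_const hr

lemma ev_lt_re {X : Type*} {l : Filter X} {f : X → ℂ} {c : ℂ} (h : Tendsto f l (𝓝 c)) {r : ℝ}
    (hr : r < c.re) : ∀ᶠ p in l, r < (f p).re :=
  ((continuous_re.tendsto c).comp h).eventually_const_lt hr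

lemma exists_level {P : ℝ × ℝ → Prop} (h : ∀ᶠ p in far, P p) :
    ∃ s : ℝ, ∀ p : ℝ × ℝ, s < p.1 → P p :=
  let ⟨R, hR⟩ := ev_far.1 h; ⟨R, fun p hp => hR p hp.le⟩

lemma star_xf (x : ℝ) : star (xf x) = xf x := by simp [xf]

lemma star_ef (x : ℝ) : star (ef 0 x) = ef 0 x := by simp [ef]

lemma cd_xf {p : ℝ × ℝ} (hp : 0 < p.1) : ContDiffAt ℝ ∞ (fun q : ℝ × ℝ => xf q.1) p :=
  (contDiffAt_const.mul (ofRealCLM.contDiff.contDiffAt.comp p contDiffAt_fst)).inv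
    (mul_ne_zero two_ne_zero (ofReal_ne_zero.2 hp.ne'))

lemma cd_ef {p : ℝ × ℝ} (hp : 0 < p.1) : ContDiffAt ℝ ∞ (fun q : ℝ × ℝ => ef 0 q.1) p := by
  have e : (fun q : ℝ × ℝ => ef 0 q.1) = fun q => xf q.1 * 4⁻¹ := by
    ext q; simp only [ef, xf]; ring
  rw [e]
  exact (cd_xf hp).mul contDiffAt_const

/-- the normalisation of first order jets -/
def n1 (c : ℂ) : T3 ℂ →L[ℂ] T3 ℂ :=
  (ContinuousLinearMap.id ℂ ℂ).prodMap ((c • ContinuousLinearMap.id ℂ ℂ).prodMap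
    (ContinuousLinearMap.id ℂ ℂ))

@[simp] lemma n1_apply (c : ℂ) (k : T3 ℂ) : n1 c k = (k.1, c * k.2.1, k.2.2) := rfl

/-- the normalisation of two-jets -/
def n2 (c d e : ℂ) : J2 ℂ →L[ℂ] J2 ℂ :=
  (n1 c).prodMap ((d • ContinuousLinearMap.id ℂ ℂ).prodMap
    ((e • ContinuousLinearMap.id ℂ ℂ).prodMap (ContinuousLinearMap.id ℂ ℂ)))

@[simp] lemma n2_apply (c d e : ℂ) (k : J2 ℂ) :
    n2 c d e k = ((k.1.1, c * k.1.2.1, k.1.2.2), (d * k.2.1, e * k.2.2.1, k.2.2.2)) := rfl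

/-- the first order part in normalised variables -/
def cB (z : (ℂ × ℂ) × T3 ℂ) : ℂ := pb z.1.1 z.1.1 z.1.2 z.2.1 z.2.2.2 z.2.2.1

/-- the operator in normalised variables -/
def cE (z : (ℂ × ℂ) × J2 ℂ) : ℂ :=
  pE z.1.1 z.1.1 z.1.2 1 z.2.1.1 z.2.1.2.2 z.2.2.2.2 z.2.1.2.1 z.2.2.1 z.2.2.2.1

lemma cd_cB : ContDiff ℂ 2 cB := by
  unfold cB pb pb0
  fun_prop

lemma cd_cE : ContDiff ℂ 2 cE := by
  unfold cE pE pa11 pa12 pa22 pb pb0
  fun_prop

lemma dcB_P : fderiv ℂ cB 0 (0, (0, 1, 0)) = -1 := by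
  refine fderiv_line (cd_cB.differentiable two_ne_zero _) ?_
  have e : (fun t : ℂ => cB (0 + t • (0, (0, 1, 0)))) = fun t => -t := by
    ext t; simp [cB, pb, pb0]; ring
  rw [e]
  exact hasDerivAt_neg' _

lemma hasDerivAt_quart : HasDerivAt (fun t : ℂ => (1 + t) ^ 2 * ((1 + t) ^ 2 - 1)) 2 0 := by
  have h := ((hasDerivAt_id (0 : ℂ)).const_add 1).pow 2
  refine (h.mul (h.sub_const 1)).congr_deriv ?_
  simp

lemma dcB_0 : fderiv ℂ cB 0 (0, (1, 0, 0)) = 2 := by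
  refine fderiv_line (cd_cB.differentiable two_ne_zero _) ?_
  have e : (fun t : ℂ => cB (0 + t • (0, (1, 0, 0)))) = fun t => (1 + t) ^ 2 * ((1 + t) ^ 2 - 1) := by
    ext t; simp [cB, pb, pb0]; left; ring
  rw [e]
  exact hasDerivAt_quart

lemma dcE_P : fderiv ℂ cE 0 (0, ((0, 1, 0), 0)) = -1 := by
  refine fderiv_line (cd_cE.differentiable two_ne_zero _) ?_
  have e : (fun t : ℂ => cE (0 + t • (0, ((0, 1, 0), 0)))) = fun t => -t := by
    ext t; simp [cE, pE, pb, pb0]; ring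
  rw [e]
  exact hasDerivAt_neg' _

lemma dcE_0 : fderiv ℂ cE 0 (0, ((1, 0, 0), 0)) = 2 := by
  refine fderiv_line (cd_cE.differentiable two_ne_zero _) ?_
  have e : (fun t : ℂ => cE (0 + t • (0, ((1, 0, 0), 0))))
      = fun t => (1 + t) ^ 2 * ((1 + t) ^ 2 - 1) := by
    ext t; simp [cE, pE, pb, pb0]; left; ring
  rw [e]
  exact hasDerivAt_quart

lemma tendsto_fderiv {A X : Type*} [NormedAddCommGroup A] [NormedSpace ℂ A] {Θ : A → ℂ}
    (hΘ : ContDiff ℂ 2 Θ) {l : Filter X} {z : X → A} {z0 : A} (hz : Tendsto z l (𝓝 z0)) (e : A) :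
    Tendsto (fun p => fderiv ℂ Θ (z p) e) l (𝓝 (fderiv ℂ Θ z0 e)) :=
  (((hΘ.continuous_fderiv two_ne_zero).clm_apply continuous_const).tendsto z0).comp hz

variable {S : Set E3} {w : E3 → ℝ} {δ C : ℝ} {ι κ M : Type} [TopologicalSpace M]
  [ChartedSpace E2 M] (m : Model S w δ C ι κ M) (i : ι)

/-- the normalised jet of the end -/
def zc (p : ℝ × ℝ) : (ℂ × ℂ) × J2 ℂ :=
  ((xf p.1, ef 0 p.1), n2 (2 * p.1) (2 * p.1) 1 (tj (TU m i) p))

lemma tendsto_zc : Tendsto (zc m i) far (𝓝 0) := by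
  have h := rtow_cyl m i
  have h0 : ∀ a b, Tendsto (TU m i a b) far (𝓝 0) := fun a b => by
    simpa using h.lim' 1 a b 0 (Nat.zero_le _)
  have h1 : ∀ a b, 1 ≤ a → Tendsto (fun p => 2 * (p.1 : ℂ) * TU m i a b p) far (𝓝 0) :=
    fun a b ha => by simpa using h.lim' 2 a b 1 ha
  have h2 : Tendsto (fun p => 1 * TU m i 1 1 p) far (𝓝 0) := by simpa using h0 1 1
  exact (tendsto_xf.prodMk_nhds tendsto_ef).prodMk_nhds
    (((h0 0 0).prodMk_nhds ((h1 1 0 le_rfl).prodMk_nhds (h0 0 1))).prodMk_nhds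
      ((h1 2 0 one_le_two).prodMk_nhds (h2.prodMk_nhds (h0 0 2))))

lemma cylOp_L (p : ℝ × ℝ) (v : J2 ℂ) :
    (cylOp m i).L p v = fderiv ℂ cE (zc m i p) (0, n2 (2 * p.1) (2 * p.1) 1 v) := by
  have e : (cylOp m i).E p = fun j => cE (zc m i p + ((ContinuousLinearMap.inr ℂ _ _).comp
      (n2 (2 * p.1) (2 * p.1) 1)) j) := by
    ext j
    simp [cylOp_E, cE, zc, tj, mul_add]
  rw [EndOp.L, e, fderiv_aff (cd_cE.differentiable two_ne_zero)]
  rfl

lemma cylOp_db (p : ℝ × ℝ) (v : T3 ℂ) : fderiv ℂ ((cylOp m i).b p) 0 v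
    = fderiv ℂ cB ((zc m i p).1, (zc m i p).2.1) (0, n1 (2 * p.1) v) := by
  have e : (cylOp m i).b p = fun j => cB (((zc m i p).1, (zc m i p).2.1)
      + ((ContinuousLinearMap.inr ℂ _ _).comp (n1 (2 * p.1))) j) := by
    ext j
    simp [cylOp, shift, cylB, cB, zc, tj, mul_add]
  rw [e, fderiv_aff (cd_cB.differentiable two_ne_zero)]
  rfl

lemma cylOp_a0 (p : ℝ × ℝ) : (cylOp m i).a p 0 =
    (2 * p.1 * pa11 (zc m i p).1.2 (zc m i p).2.1.1 (zc m i p).2.1.2.2,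
      pa12 (zc m i p).1.2 1 (zc m i p).2.1.1 (zc m i p).2.1.2.2 (zc m i p).2.1.2.1,
      pa22 (zc m i p).1.1 (zc m i p).1.2 (zc m i p).2.1.1 (zc m i p).2.1.2.1) := by
  simp [cylOp, shift, cylA, zc]

lemma lim_pa11 : Tendsto (fun p => pa11 (zc m i p).1.2 (zc m i p).2.1.1 (zc m i p).2.1.2.2) far
    (𝓝 1) := by
  have h : Continuous fun z : (ℂ × ℂ) × J2 ℂ => pa11 z.1.2 z.2.1.1 z.2.1.2.2 := by
    unfold pa11; fun_prop
  simpa [pa11, Function.comp_def] using (h.tendsto 0).comp (tendsto_zc m i)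

lemma lim_pa12 : Tendsto (fun p => pa12 (zc m i p).1.2 1 (zc m i p).2.1.1 (zc m i p).2.1.2.2
    (zc m i p).2.1.2.1) far (𝓝 0) := by
  have h : Continuous fun z : (ℂ × ℂ) × J2 ℂ => pa12 z.1.2 1 z.2.1.1 z.2.1.2.2 z.2.1.2.1 := by
    unfold pa12; fun_prop
  simpa [pa12, Function.comp_def] using (h.tendsto 0).comp (tendsto_zc m i)

lemma lim_pa22 : Tendsto (fun p => pa22 (zc m i p).1.1 (zc m i p).1.2 (zc m i p).2.1.1
    (zc m i p).2.1.2.1) far (𝓝 1) := by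
  have h : Continuous fun z : (ℂ × ℂ) × J2 ℂ => pa22 z.1.1 z.1.2 z.2.1.1 z.2.1.2.1 := by
    unfold pa22; fun_prop
  simpa [pa22, Function.comp_def] using (h.tendsto 0).comp (tendsto_zc m i)

lemma re_two_mul (x : ℝ) (z : ℂ) : (2 * x * z).re = 2 * x * z.re := by simp

theorem cyl_good : ∃ s, m.w0 ≤ s ∧ (cylOp m i).Good s ∧ (cylOp m i).Ext s := by
  have hz := tendsto_zc m i
  have hz1 : Tendsto (fun p => ((zc m i p).1, (zc m i p).2.1)) far (𝓝 0) :=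
    ((by fun_prop : Continuous fun z : (ℂ × ℂ) × J2 ℂ => (z.1, z.2.1)).tendsto 0).comp hz
  have b1 := tendsto_fderiv cd_cB hz1 (0, (0, 1, 0))
  have b0 := tendsto_fderiv cd_cB hz1 (0, (1, 0, 0))
  have e1 := tendsto_fderiv cd_cE hz (0, ((0, 1, 0), 0))
  have e0 := tendsto_fderiv cd_cE hz (0, ((1, 0, 0), 0))
  rw [dcB_P] at b1
  rw [dcB_0] at b0
  rw [dcE_P] at e1
  rw [dcE_0] at e0
  obtain ⟨s, hs⟩ := exists_level ((ev_gt (max m.w0 1000)).and
    (((ev_lt_re (lim_pa11 m i) (r := 1 / 2) (by norm_num)).and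
      (ev_re_lt (lim_pa11 m i) (r := 2) (by norm_num))).and
    (((ev_lt_re (lim_pa12 m i) (r := -1) (by norm_num)).and
      (ev_re_lt (lim_pa12 m i) (r := 1) (by norm_num))).and
    ((ev_lt_re (lim_pa22 m i) (r := 1 / 2) (by norm_num)).and
    (((ev_re_lt b1 (r := 0) (by norm_num)).and (ev_re_lt b0 (r := 3) (by norm_num))).and
    ((ev_re_lt e1 (r := -(2 / 3)) (by norm_num)).and (ev_re_lt e0 (r := 3) (by norm_num))))))))
  have h := rtow_cyl m i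
  have sm : ∀ p : ℝ × ℝ, max s m.w0 < p.1 → ContDiffAt ℝ 2
      (fun q : ℝ × ℝ => (((q.1 : ℂ), xf q.1, ef 0 q.1), (tj (TU m i) q).1)) p := fun p hp => by
    have h1 := (le_max_right _ _).trans_lt hp
    have h2 := pos_of_lt m h1
    exact (((ofRealCLM.contDiff.contDiffAt.comp p contDiffAt_fst).prodMk
      ((cd_xf h2).prodMk (cd_ef h2))).prodMk (h.sm_tj h1).fst).of_le two_le_inf
  have ha := fun p hp => mix_of (Θ := fun z : ((ℂ × ℂ × ℂ) × T3 ℂ) × T3 ℂ =>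
    ((2 * z.1.1.1 * pa11 z.1.1.2.2 (z.1.2 + z.2).1 (z.1.2 + z.2).2.2,
      pa12 z.1.1.2.2 1 (z.1.2 + z.2).1 (z.1.2 + z.2).2.2 (2 * z.1.1.1 * (z.1.2 + z.2).2.1),
      pa22 z.1.1.2.1 z.1.1.2.2 (z.1.2 + z.2).1 (2 * z.1.1.1 * (z.1.2 + z.2).2.1)) : T3 ℂ))
    (by unfold pa11 pa12 pa22; fun_prop) (sm p hp)
  have hb := fun p hp => mix_of (Θ := fun z : ((ℂ × ℂ × ℂ) × T3 ℂ) × T3 ℂ =>
    pb z.1.1.2.1 z.1.1.2.1 z.1.1.2.2 (z.1.2 + z.2).1 (z.1.2 + z.2).2.2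
      (2 * z.1.1.1 * (z.1.2 + z.2).2.1)) (by unfold pb pb0; fun_prop) (sm p hp)
  have hg : (cylOp m i).Good (max s m.w0) := by
    refine ⟨fun x θ => by simp only [cylOp, shift, h.per_tj x θ],
      fun x θ => by simp only [cylOp, shift, h.per_tj x θ],
      fun x θ => by simp only [cylOp, shift, h.per_tj x θ], fun p hp => (ha p hp).1,
      fun p hp => (hb p hp).1, fun p hp => (ha p hp).2, fun p hp => (hb p hp).2,
      fun p hp => (h.sm_tj ((le_max_right _ _).trans_lt hp)).snd.of_le one_le_inf,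
      fun p hp => ?_, fun p j hj => ?_, fun p j hj => ?_,
      fun p => congrArg Prod.snd (h.real_tj p), fun p hp => ?_, fun p hp => ?_, fun p hp => ?_⟩
    · simpa [cylOp_E] using pE_cyl m i ((le_max_right _ _).trans_lt hp)
    · have h1 : star ((tj (TU m i) p).1 + j) = (tj (TU m i) p).1 + j := by
        rw [star_add, hj, ← Prod.fst_star, h.real_tj]
      simp only [cylOp, shift, cylA]
      generalize (tj (TU m i) p).1 + j = k at h1
      simp only [Prod.ext_iff, Prod.fst_star, Prod.snd_star] at h1 ⊢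
      simp [pa11, pa12, pa22, star_xf, star_ef, h1, -RCLike.star_def, star_mul']
    · have h1 : star ((tj (TU m i) p).1 + j) = (tj (TU m i) p).1 + j := by
        rw [star_add, hj, ← Prod.fst_star, h.real_tj]
      simp only [cylOp, shift, cylB]
      generalize (tj (TU m i) p).1 + j = k at h1
      simp only [Prod.ext_iff, Prod.fst_star, Prod.snd_star] at h1 ⊢
      simp [pb, pb0, star_xf, star_ef, h1, -RCLike.star_def, star_mul']
    · obtain ⟨a0, ⟨a1, -⟩, ⟨a2, a3⟩, a4, -⟩ := hs p ((le_max_left _ _).trans_lt hp)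
      have a5 := (le_max_right _ _).trans_lt a0
      simp only [cylOp_a0, re_two_mul]
      constructor
      · positivity
      · nlinarith [mul_lt_mul'' a1 a4 (by norm_num) (by norm_num)]
    · obtain ⟨a0, -, -, -, ⟨a1, -⟩, -⟩ := hs p ((le_max_left _ _).trans_lt hp)
      have a5 := (le_max_right _ _).trans_lt a0
      have e : ((0 : ℂ × ℂ), n1 (2 * p.1) (0, 1, 0)) = (2 * p.1 : ℂ) • (0, (0, 1, 0)) := by simp
      rw [cylOp_db, e, map_smul, smul_eq_mul, re_two_mul]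
      nlinarith
    · obtain ⟨a0, ⟨a1, -⟩, -, -, ⟨-, a2⟩, -⟩ := hs p ((le_max_left _ _).trans_lt hp)
      have a5 := (le_max_right _ _).trans_lt a0
      have e : ((0 : ℂ × ℂ), n1 (2 * p.1) (1, 0, 0)) = (0, (1, 0, 0)) := by simp
      rw [cylOp_db, e, cylOp_a0, re_two_mul]
      nlinarith
  refine ⟨max s m.w0, le_max_right _ _, hg, fun p hp => ?_⟩
  obtain ⟨a0, ⟨-, a1⟩, -, -, -, a2, a3⟩ := hs p ((le_max_left _ _).trans_lt hp)
  have a5 := (le_max_right _ _).trans_lt a0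
  have f1 : ((0 : ℂ × ℂ), n2 (2 * p.1) (2 * p.1) 1 ((0, 1, 0), 0))
      = (2 * p.1 : ℂ) • (0, ((0, 1, 0), 0)) := by simp
  have f0 : ((0 : ℂ × ℂ), n2 (2 * p.1) (2 * p.1) 1 ((1, 0, 0), 0)) = (0, ((1, 0, 0), 0)) := by simp
  rw [L_hess (diff_E hg hp), cylOp_L, cylOp_L, f1, f0, map_smul, smul_eq_mul, re_two_mul,
    cylOp_a0]
  simp only [pair, mul_one, mul_zero, add_zero, re_two_mul]
  have hp0 : 0 < p.1 := by linarith
  nlinarith [mul_lt_mul_of_pos_left a1 hp0, mul_lt_mul_of_pos_left a2 (mul_pos hp0 hp0),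
    mul_lt_mul_of_pos_left a3 (mul_pos hp0 hp0), mul_lt_mul_of_pos_left a5 hp0]

end Vale.Agent.P218OP
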