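import Vale.Agent.P218OP.JD
import Vale.Agent.P218XI.Xi

/-! The Cayley rotations and the universal formula for the deformed surface. -/

open Set Filter Topology Complex
open scoped ContDiff Matrix

noncomputable section

set_option linter.unusedSectionVars false

namespace Vale.Agent.P218OP

open Vale.Agent.P218VA Vale.Agent.P218CO Vale.Agent.P218XI

/-- the rotation with the Cayley parameter `o` applied to `X` -/
def rot (o X : C3) : C3 :=
  X + (4 / (4 + o ⬝ᵥ o)) • (o ⨯₃ X + (1 / 2 : ℂ) • (o ⨯₃ (o ⨯₃ X)))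

/-- its matrix -/
def cay3 (o : C3) : Matrix (Fin 3) (Fin 3) ℂ := Matrix.of fun i j => rot o (Pi.single j 1) i

lemma cay3_mulVec (o X : C3) : cay3 o *ᵥ X = rot o X := by
  ext i
  simp only [Matrix.mulVec, dot3]
  fin_cases i <;> simp [cay3, rot, cross_apply] <;> ring

lemma cay3_orth {o : C3} (h : 4 + o ⬝ᵥ o ≠ 0) : (cay3 o)ᵀ * cay3 o = 1 := by
  have e : ∀ X Y : C3, rot o X ⬝ᵥ rot o Y = X ⬝ᵥ Y := fun X Y => by
    have h1 : (4 / (4 + o ⬝ᵥ o)) * (4 + o ⬝ᵥ o) = 4 := div_mul_cancel₀ _ h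
    unfold rot
    generalize 4 / (4 + o ⬝ᵥ o) = c at h1 ⊢
    simp only [dot3, Pi.add_apply, Pi.smul_apply, smul_eq_mul, cross0, cross1, cross2] at h1 ⊢
    linear_combination (c / 4 * ((o 0 * o 0 + o 1 * o 1 + o 2 * o 2) *
      (X 0 * Y 0 + X 1 * Y 1 + X 2 * Y 2) - (o 0 * X 0 + o 1 * X 1 + o 2 * X 2) *
        (o 0 * Y 0 + o 1 * Y 1 + o 2 * Y 2))) * h1
  ext i j
  have := e (Pi.single i 1) (Pi.single j 1)
  rw [Matrix.mul_apply]
  refine this.trans ?_
  simp [Matrix.one_apply, Pi.single_apply, eq_comm]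

@[simp] lemma rot_zero (X : C3) : rot 0 X = X := by simp [rot]

lemma cay3_zero : cay3 0 = 1 := by
  ext i j
  simp [cay3, Matrix.one_apply, Pi.single_apply]

lemma star_dot (a b : C3) : star (a ⬝ᵥ b) = star a ⬝ᵥ star b := by simp [dot3]

lemma star_cross (a b : C3) : star (a ⨯₃ b) = star a ⨯₃ star b := by
  ext i
  fin_cases i <;> simp [cross_apply]

lemma star_rot (o X : C3) : star (rot o X) = rot (star o) (star X) := by
  simp [rot, star_cross, ← star_dot]

lemma contDiffAt_rot {H : Type*} [NormedAddCommGroup H] [NormedSpace ℂ H] {n : WithTop ℕ∞}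
    {o X : H → C3} {x : H} (ho : ContDiffAt ℂ n o x) (hX : ContDiffAt ℂ n X x)
    (h : 4 + o x ⬝ᵥ o x ≠ 0) : ContDiffAt ℂ n (fun y => rot (o y) (X y)) x :=
  hX.add ((contDiffAt_const.div (contDiffAt_const.add (contDiffAt_dot ho ho)) h).smul
    ((contDiffAt_cross ho hX).add ((contDiffAt_cross ho (contDiffAt_cross ho hX)).const_smul _)))

lemma hasDerivAt_rot {o X : ℂ → C3} {o' X' : C3} (ho : HasDerivAt o o' 0) (h0 : o 0 = 0)
    (hX : HasDerivAt X X' 0) : HasDerivAt (fun t => rot (o t) (X t)) (X' + o' ⨯₃ X 0) 0 := by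
  have h1 := hasDerivAt_cross ho hX
  have h2 := (hasDerivAt_const (0 : ℂ) (4 : ℂ)).div ((hasDerivAt_dot ho ho).const_add 4)
    (by simp [h0])
  refine (hX.add (h2.smul (h1.add ((hasDerivAt_cross ho h1).const_smul (1 / 2 : ℂ))))).congr_deriv ?_
  simp [h0]

/-- the coefficients `((P, N), (g, n), (t₀, k), Ω)` -/
abbrev Co (β : Type) : Type := (C3 × C3) × (C3 × C3) × (ℂ × ℂ) × (β → C3)

variable {β : Type} [Fintype β]

/-- the angular coordinate -/
def tt (c : Co β) (U : ℂ) : ℂ := c.2.2.1.1 + c.2.2.1.2 * U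

/-- the position before the rotation -/
def X0 (c : Co β) (U : ℂ) : C3 :=
  c.1.1 + U • c.1.2 + (co (tt c U) • c.2.1.1 + si (tt c U) • c.2.1.2)

/-- its derivative in `U` -/
def XU (c : Co β) (U : ℂ) : C3 :=
  c.1.2 + d1 (tt c U) c.2.2.1.2 • (co (tt c U) • c.2.1.2 - si (tt c U) • c.2.1.1)

/-- the Cayley parameter -/
def om (c : Co β) (B : β → ℂ) : C3 := ∑ k, B k • c.2.2.2 k

/-- the position -/
def Th (z : Co β × ℂ × (β → ℂ)) : C3 := rot (om z.1 z.2.2) (X0 z.1 z.2.1)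

/-- its derivative in `U` -/
def ThU (z : Co β × ℂ × (β → ℂ)) : C3 := rot (om z.1 z.2.2) (XU z.1 z.2.1)

/-- the denominators do not vanish -/
def Ok (z : Co β × ℂ × (β → ℂ)) : Prop :=
  1 + tt z.1 z.2.1 ^ 2 ≠ 0 ∧ 4 + om z.1 z.2.2 ⬝ᵥ om z.1 z.2.2 ≠ 0

@[simp] lemma om_zero (c : Co β) : om c 0 = 0 := by simp [om]

lemma om_smul (c : Co β) (t : ℂ) (B : β → ℂ) : om c (t • B) = t • om c B := by
  simp [om, Finset.smul_sum, smul_smul]

variable {z : Co β × ℂ × (β → ℂ)} {n : WithTop ℕ∞}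

lemma cd_tt : ContDiff ℂ n fun z : Co β × ℂ × (β → ℂ) => tt z.1 z.2.1 := by
  unfold tt; fun_prop

lemma cd_om : ContDiff ℂ n fun z : Co β × ℂ × (β → ℂ) => om z.1 z.2.2 := by
  unfold om; fun_prop

lemma cd_co (h : 1 + tt z.1 z.2.1 ^ 2 ≠ 0) :
    ContDiffAt ℂ n (fun z : Co β × ℂ × (β → ℂ) => co (tt z.1 z.2.1)) z :=
  (contDiffAt_const.sub (cd_tt.contDiffAt.pow 2)).div
    (contDiffAt_const.add (cd_tt.contDiffAt.pow 2)) h

lemma cd_si (h : 1 + tt z.1 z.2.1 ^ 2 ≠ 0) :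
    ContDiffAt ℂ n (fun z : Co β × ℂ × (β → ℂ) => si (tt z.1 z.2.1)) z :=
  (contDiffAt_const.mul cd_tt.contDiffAt).div (contDiffAt_const.add (cd_tt.contDiffAt.pow 2)) h

lemma Ok.cd_Th (h : Ok z) : ContDiffAt ℂ n Th z :=
  contDiffAt_rot cd_om.contDiffAt ((ContDiffAt.add (by fun_prop) (by fun_prop)).add
    (((cd_co h.1).smul (by fun_prop)).add ((cd_si h.1).smul (by fun_prop)))) h.2

lemma Ok.cd_ThU (h : Ok z) : ContDiffAt ℂ n ThU z :=
  contDiffAt_rot cd_om.contDiffAt (ContDiffAt.add (by fun_prop) (ContDiffAt.smul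
    (ContDiffAt.div (by fun_prop) (contDiffAt_const.add (cd_tt.contDiffAt.pow 2)) h.1)
    (((cd_co h.1).smul (by fun_prop)).sub ((cd_si h.1).smul (by fun_prop))))) h.2

lemma star_tt (hz : star z = z) : star (tt z.1 z.2.1) = tt z.1 z.2.1 := by
  conv_rhs => rw [← hz]
  simp [tt]

lemma star_om (hz : star z = z) : star (om z.1 z.2.2) = om z.1 z.2.2 := by
  conv_rhs => rw [← hz]
  simp [om, star_sum]

lemma star_co (t : ℂ) : star (co t) = co (star t) := by simp [co]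
lemma star_si (t : ℂ) : star (si t) = si (star t) := by simp [si]
lemma star_d1 (t k : ℂ) : star (d1 t k) = d1 (star t) (star k) := by simp [d1]

lemma star_Th (hz : star z = z) : star (Th z) = Th z := by
  rw [Th, star_rot, star_om hz, X0, star_add, star_add, star_add, star_smul, star_smul, star_smul,
    star_co, star_si, star_tt hz, show star z.1.1.1 = z.1.1.1 from congrArg (·.1.1.1) hz,
    show star z.1.1.2 = z.1.1.2 from congrArg (·.1.1.2) hz,
    show star z.2.1 = z.2.1 from congrArg (·.2.1) hz,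
    show star z.1.2.1.1 = z.1.2.1.1 from congrArg (·.1.2.1.1) hz,
    show star z.1.2.1.2 = z.1.2.1.2 from congrArg (·.1.2.1.2) hz]

lemma star_ThU (hz : star z = z) : star (ThU z) = ThU z := by
  rw [ThU, star_rot, star_om hz, XU, star_add, star_smul, star_sub, star_smul, star_smul,
    star_co, star_si, star_d1, star_tt hz, show star z.1.1.2 = z.1.1.2 from congrArg (·.1.1.2) hz,
    show star z.1.2.2.1.2 = z.1.2.2.1.2 from congrArg (·.1.2.2.1.2) hz,
    show star z.1.2.1.1 = z.1.2.1.1 from congrArg (·.1.2.1.1) hz,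
    show star z.1.2.1.2 = z.1.2.1.2 from congrArg (·.1.2.1.2) hz]

lemma add_dot_ne {o : C3} (h : star o = o) {c : ℝ} (hc : 0 < c) : c + o ⬝ᵥ o ≠ 0 := by
  have h1 : ∀ i, o i = ((o i).re : ℂ) := fun i => (conj_eq_iff_re.1 (congrFun h i)).symm
  rw [dot3, h1 0, h1 1, h1 2]
  have : 0 < c + ((o 0).re * (o 0).re + (o 1).re * (o 1).re + (o 2).re * (o 2).re) := by
    nlinarith [mul_self_nonneg (o 0).re, mul_self_nonneg (o 1).re, mul_self_nonneg (o 2).re]
  exact_mod_cast this.ne'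

lemma ok_of_real (hz : star z = z) : Ok z := by
  refine ⟨?_, by exact_mod_cast add_dot_ne (star_om hz) (c := 4) four_pos⟩
  rw [← conj_eq_iff_re.1 (star_tt hz)]
  have : 0 < 1 + (tt z.1 z.2.1).re ^ 2 := by positivity
  exact_mod_cast this.ne'

lemma hasDerivAt_X0 {c : Co β} {U U' : ℂ} (h : 1 + tt c U ^ 2 ≠ 0) :
    HasDerivAt (fun t : ℂ => X0 c (U + t * U')) (U' • XU c U) 0 := by
  have l : HasDerivAt (fun t : ℂ => U + t * U') U' 0 := by
    simpa using ((hasDerivAt_id (0 : ℂ)).mul_const U').const_add U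
  have h1 : HasDerivAt (fun t : ℂ => tt c (U + t * U')) (c.2.2.1.2 * U') 0 :=
    (l.const_mul _).const_add _
  have h2 := (h1.pow 2).const_add 1
  have h' : 1 + tt c (U + 0 * U') ^ 2 ≠ 0 := by simpa using h
  have h3 := ((h1.pow 2).const_sub 1).div h2 h'
  have h4 := (h1.const_mul 2).div h2 h'
  refine (((l.smul_const c.1.2).const_add c.1.1).add
    ((h3.smul_const c.2.1.1).add (h4.smul_const c.2.1.2))).congr_deriv ?_
  ext i
  simp [XU, co, si, d1]
  field_simp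
  ring

/-- the derivative at the base point -/
lemma fderiv_Th {c : Co β} (h : 1 + tt c 0 ^ 2 ≠ 0) (U : ℂ) (B : β → ℂ) :
    fderiv ℂ Th (c, 0, 0) (0, U, B) = U • XU c 0 + om c B ⨯₃ X0 c 0 := by
  have h0 : Ok (c, (0 : ℂ), (0 : β → ℂ)) := ⟨h, by simp⟩
  refine (hasDerivAt_line ((h0.cd_Th (n := 1)).differentiableAt one_ne_zero) _).unique ?_
  have h1 : HasDerivAt (fun t : ℂ => t • om c B) (om c B) 0 := by
    simpa using (hasDerivAt_id (0 : ℂ)).smul_const (om c B)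
  have h2 := hasDerivAt_rot h1 (by simp) (hasDerivAt_X0 (U' := U) h)
  simpa [Th, om_smul] using h2

end Vale.Agent.P218OP
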