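import Vale.Agent.P218OP.Def
import Vale.Agent.P218OP.Cay
import Vale.Agent.P218CO.Geo

/-! The ends of the model in a unified form; the sign of the normal on each end. -/

open Set Filter Topology Complex
open scoped ContDiff Matrix RealInnerProductSpace

noncomputable section

set_option linter.unusedSectionVars false

namespace Vale.Agent.P218OP

open Vale.Agent.P218VA Vale.Agent.P218CO Vale.Agent.P218XI Vale.Agent.P218MP
open Vale.Agent.P218GA (E3 Model far ev_gt ev_far cx mat mat_orth cx_isometry crs crs_par cx_crs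
  pd_cx inner_grad_pd toZero_iff)

lemma star_cx (v : E3) : star (cx v) = cx v := by
  ext i; simp [cx]

lemma Xt_eq (F : Frame) (w θ : ℝ) (t : ℂ) : F.Xt w θ t = (2 * rt w * d1 t 1) • F.v θ t := by
  simp [Frame.Xt, Frame.R_mulVec]

lemma star_rt (w : ℝ) : star (rt w) = rt w := conj_ofReal _

variable {S : Set E3} {w : E3 → ℝ} {δ C : ℝ} {ι κ M : Type} [TopologicalSpace M]
  [ChartedSpace E2 M] (m : Model S w δ C ι κ M)

/-- the rotated frames of the ends -/
def fq : ι ⊕ κ → Frame :=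
  Sum.elim (fun i => cylF.rot (mat (m.Q i)) (mat_orth _)) fun k => coneF (m.L k)

/-- the scale of the unknown function -/
def ks : ι ⊕ κ → ℝ → ℝ := Sum.elim (fun _ x => (√(8 * x))⁻¹) fun _ _ => 1

/-- the angular coordinate of the ends -/
def tb (j : ι ⊕ κ) (p : ℝ × ℝ) : ℝ := ks j p.1 * ub m j p

variable (j : ι ⊕ κ) {p : ℝ × ℝ}

lemma scl_eq (x : ℝ) : scl j x = (ks j x : ℝ) := by
  rcases j with i | k
  · rfl
  · simp [scl, ks]

lemma star_γ (θ : ℝ) : star ((fq m j).γ θ) = (fq m j).γ θ := by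
  rcases j with i | k
  · change star (mat _ *ᵥ e3c) = mat _ *ᵥ e3c
    rw [← cx_e3, ← cx_isometry, star_cx]
  · exact star_cx _

lemma star_n (θ : ℝ) : star ((fq m j).n θ) = (fq m j).n θ := by
  rcases j with i | k
  · change star (mat _ *ᵥ ethc θ) = mat _ *ᵥ ethc θ
    rw [← cx_eth, ← cx_isometry, star_cx]
  · exact star_cx _

lemma star_Xt (x θ t : ℝ) : star ((fq m j).Xt x θ t) = (fq m j).Xt x θ t := by
  simp only [Xt_eq, Frame.v, star_smul, star_sub, star_mul', star_co, star_si, star_d1, star_rt,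
    star_γ, star_n, star_one, star_ofNat, RCLike.star_def, conj_ofReal]

lemma star_G (θ t : ℝ) : star ((fq m j).G θ t) = (fq m j).G θ t := by
  rcases j with i | k
  · change star (cylF.G θ t) = cylF.G θ t
    rw [cylF_G, star_si, RCLike.star_def, conj_ofReal]
  · simp only [fq, Sum.elim_inr, Frame.G, coneF_c, coneF_β, star_add, star_mul', star_co, star_si,
      RCLike.star_def, conj_ofReal]

lemma star_sg (θ : ℝ) : star ((fq m j).sg θ) = (fq m j).sg θ := by
  rcases sq_eq_one_iff.1 ((fq m j).sg_sq θ) with h | h <;> simp [h]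

lemma ks_pos {x : ℝ} (hx : 0 < x) : 0 < ks j x := by
  rcases j with i | k
  · exact inv_pos.2 (Real.sqrt_pos.2 (by linarith))
  · exact one_pos

lemma ks_le {x : ℝ} (hx : 1 ≤ x) : ks j x ≤ 1 := by
  rcases j with i | k
  · exact inv_le_one_of_one_le₀ (Real.one_le_sqrt.2 (by linarith))
  · exact le_rfl

lemma cd_ks (hp : 0 < p.1) : ContDiffAt ℝ ∞ (fun q : ℝ × ℝ => ks j q.1) p := by
  rcases j with i | k
  · have h : 0 < 8 * p.1 := by linarith
    exact ((contDiffAt_const.mul contDiffAt_fst).sqrt h.ne').inv (Real.sqrt_pos.2 h).ne'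
  · exact contDiffAt_const

lemma cd_ub (hp : m.w0 < p.1) : ContDiffAt ℝ ∞ (ub m j) p := by
  rcases j with i | k
  · exact m.U_smooth i p hp
  · exact m.t_smooth k p hp

lemma per_ub : Per (ub m j) := by
  rcases j with i | k
  · exact m.U_periodic i
  · exact m.t_periodic k

lemma cd_tb (hp : m.w0 < p.1) : ContDiffAt ℝ ∞ (tb m j) p :=
  (cd_ks j (pos_of_lt m hp)).mul (cd_ub m j hp)

lemma cd_tbc (hp : m.w0 < p.1) : ContDiffAt ℝ ∞ (fun q => (tb m j q : ℂ)) p :=
  ofRealCLM.contDiff.contDiffAt.comp p (cd_tb m j hp)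

lemma per_tb : Per (tb m j) := fun x θ => by simp only [tb, per_ub m j x θ]

lemma F_Y (hp : m.w0 < p.1) :
    cx (m.F ((ends m).Y j p)) = (fq m j).X p.1 p.2 (tb m j p) := by
  rcases j with i | k
  · refine (congrArg cx (m.cyl i p hp)).trans ?_
    rw [cx_isometry, cx_xiCyl, ← Frame.rot_X _ (mat_orth _), div_eq_inv_mul]
    rfl
  · refine (congrArg cx (m.cone k p hp)).trans ?_
    rw [cx_xiCone, tb]
    simp [ks, ub, fq]

lemma F_Y_ev (hp : m.w0 < p.1) : (fun q => cx (m.F ((ends m).Y j q))) =ᶠ[𝓝 p]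
    fun q : ℝ × ℝ => (fq m j).X q.1 q.2 (tb m j q) :=
  (Ends.ev_w0 (𝓔 := ends m) hp).mono fun _ hq => F_Y m j hq

/-- the first derivative of the end in `w` -/
def ea (p : ℝ × ℝ) : C3 :=
  (fq m j).a p.1 p.2 (tb m j p) (pd (fun q => (tb m j q : ℂ)) (1, 0) p)

/-- the first derivative of the end in `θ` -/
def eb (p : ℝ × ℝ) : C3 :=
  (fq m j).b p.1 p.2 (tb m j p) (pd (fun q => (tb m j q : ℂ)) (0, 1) p)

lemma cd_FY (hp : m.w0 < p.1) : ContDiffAt ℝ ∞ (fun q => m.F ((ends m).Y j q)) p :=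
  contDiffAt_end m j hp

lemma cx_pd (hp : m.w0 < p.1) : cx (pd (fun q => m.F ((ends m).Y j q)) (1, 0) p) = ea m j p ∧
    cx (pd (fun q => m.F ((ends m).Y j q)) (0, 1) p) = eb m j p := by
  have h := (cd_FY m j hp).differentiableAt (by simp)
  rw [← pd_cx h, ← pd_cx h, pd_congr (F_Y_ev m j hp), pd_congr (F_Y_ev m j hp)]
  exact (fq m j).pd_X1 ((cd_tbc m j hp).of_le (by exact_mod_cast le_top)) (pos_of_lt m hp)
    (one_add_sq_ne _)

/-- the orientation factor -/
def ep (p : ℝ × ℝ) : ℝ := ⟪crs (pd (fun q => m.F ((ends m).Y j q)) (1, 0) p)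
  (pd (fun q => m.F ((ends m).Y j q)) (0, 1) p), m.nu ((ends m).Y j p)⟫

lemma cross_eq (hp : m.w0 < p.1) :
    ea m j p ⨯₃ eb m j p = (ep m j p : ℂ) • cx (m.nu ((ends m).Y j p)) := by
  have h := (cd_FY m j hp).differentiableAt (by simp)
  have h0 : ∀ v, ⟪m.nu ((ends m).Y j p), pd (fun q => m.F ((ends m).Y j q)) v p⟫ = 0 := fun v =>
    inner_grad_pd (X := fun q => m.F ((ends m).Y j q)) (m.tube.cd1.differentiable one_ne_zero _) h
      ((Ends.ev_w0 (𝓔 := ends m) hp).mono fun _ hq => m.w_F (m.pol_mem_reg j hq)) v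
  rw [← (cx_pd m j hp).1, ← (cx_pd m j hp).2, ← cx_crs,
    crs_par (m.norm_nu (m.pol_mem_reg j hp)) (h0 _) (h0 _), map_smul, Complex.coe_smul]
  rfl

/-- the normal component of the derivative in the angular coordinate -/
def nx (p : ℝ × ℝ) : ℝ := (cx (m.nu ((ends m).Y j p)) ⬝ᵥ (fq m j).Xt p.1 p.2 (tb m j p)).re

lemma nx_eq (p : ℝ × ℝ) :
    cx (m.nu ((ends m).Y j p)) ⬝ᵥ (fq m j).Xt p.1 p.2 (tb m j p) = (nx m j p : ℝ) :=
  (conj_eq_iff_re.1 (by rw [← RCLike.star_def, star_dot, star_cx, star_Xt])).symm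

lemma ep_nx (hp : m.w0 < p.1) : (ep m j p : ℂ) * nx m j p = (fq m j).sg p.2 *
    -(4 * rt p.1 * d1 (tb m j p) 1 * (fq m j).G p.2 (tb m j p)) := by
  rw [← nx_eq, ← smul_eq_mul, ← smul_dotProduct, ← cross_eq m j hp]
  exact (fq m j).Xt_triple _ _ _ (pos_of_lt m hp) (one_add_sq_ne _)

lemma tendsto_U (i : ι) : Tendsto (m.U i) far (𝓝 1) := by
  have := (toZero_iff.1 (m.U_lim i 0 0)).add_const 1
  simpa using this

lemma tendsto_t (k : κ) : Tendsto (m.t k) far (𝓝 0) := by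
  simpa using toZero_iff.1 (m.t_lim k 0 0)

lemma ev_G : ∀ᶠ p in far, 0 < ((fq m j).G p.2 (tb m j p)).re := by
  rcases j with i | k
  · filter_upwards [(tendsto_U m i).eventually_const_lt zero_lt_one, ev_gt 0] with p h1 h2
    have h3 : 0 < tb m (.inl i) p := mul_pos (ks_pos _ h2) h1
    change 0 < (cylF.G p.2 _).re
    rw [cylF_G, show si (tb m (.inl i) p) = ((2 * tb m (.inl i) p / (1 + tb m (.inl i) p ^ 2) : ℝ) :
      ℂ) by simp [si], ofReal_re]
    positivity
  · have hp : Function.Periodic (Link.bet (m.L k)) (2 * Real.pi) := fun θ =>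
      ofReal_injective ((coneF (m.L k)).β_per θ)
    have hK := hp.compact_of_continuous (by positivity) (Link.bet_sm _).continuous
    have h := tendsto_unif hK (Φ := fun z : ℝ × ℝ => ((m.L k).c * (1 - z.2 ^ 2) + z.1 * (2 * z.2)) /
      (1 + z.2 ^ 2)) (Continuous.div (by fun_prop) (by fun_prop) fun z => by positivity)
      (z0 := 0) (L := (m.L k).c) (by simp) (β := fun p : ℝ × ℝ => Link.bet (m.L k) p.2)
      (fun p => mem_range_self _) (tendsto_t m k)
    filter_upwards [h.eventually_const_lt (m.L k).c_pos] with p h1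
    refine h1.trans_eq ?_
    rw [← ofReal_re (_ / _)]
    congr 1
    simp only [fq, tb, ks, ub, Sum.elim_inr, Frame.G, coneF_c, coneF_β, co, si, one_mul]
    push_cast
    ring

lemma d1_ne (t : ℝ) : d1 t 1 ≠ 0 := div_ne_zero (by norm_num) (one_add_sq_ne t)

lemma ep_nx_ne (hp : m.w0 < p.1) (hG : 0 < ((fq m j).G p.2 (tb m j p)).re) :
    ep m j p ≠ 0 ∧ nx m j p ≠ 0 := by
  have h : (ep m j p : ℂ) * nx m j p ≠ 0 := by
    rw [ep_nx m j hp]
    exact mul_ne_zero ((fq m j).sg_ne _) (neg_ne_zero.2 (mul_ne_zero (mul_ne_zero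
      (mul_ne_zero (by norm_num) (rt_ne (pos_of_lt m hp))) (d1_ne _)) fun h => by simp [h] at hG))
  exact ⟨fun h0 => by simp [h0] at h, fun h0 => by simp [h0] at h⟩

lemma cd_nuY (hp : m.w0 < p.1) : ContDiffAt ℝ ∞ (fun q => cx (m.nu ((ends m).Y j q))) p :=
  cx.contDiff.contDiffAt.comp p (Ends.contDiffAt_Y (𝓔 := ends m) hp (m.ckAt_nu (m.pol_mem_reg j hp)))

lemma cont_nx (hp : m.w0 < p.1) : ContinuousAt (nx m j) p := by
  have h1 := (cd_tbc m j hp).continuousAt
  have h2 := one_add_sq_ne (tb m j p)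
  have h3 := (fq m j).γ_sm.continuous
  have h4 := (fq m j).n_sm.continuous
  have h5 := continuous_rt
  have h6 : ContinuousAt (fun q : ℝ × ℝ => (fq m j).Xt q.1 q.2 (tb m j q)) p := by
    simp only [Xt_eq, Frame.v, co, si, d1]
    fun_prop (disch := assumption)
  have h7 := continuousAt_pi.1 (cd_nuY m j hp).continuousAt
  have h8 := continuousAt_pi.1 h6
  refine continuous_re.continuousAt.comp ?_
  simp only [dot3]
  exact (((h7 0).mul (h8 0)).add ((h7 1).mul (h8 1))).add ((h7 2).mul (h8 2))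

open Classical in
/-- the sign of the normal on an end -/
def sg : ℝ := if ∀ᶠ p in far, 0 < nx m j p then 1 else -1

lemma sg_cases : sg m j = 1 ∨ sg m j = -1 := by
  unfold sg; split_ifs <;> simp

lemma sg_mul_self : sg m j * sg m j = 1 := by
  rcases sg_cases m j with h | h <;> simp [h]

lemma ev_sg : ∀ᶠ p in far, 0 < sg m j * nx m j p := by
  obtain ⟨R, hR⟩ := ev_far.1 ((ev_G m j).and (ev_gt m.w0))
  have h := (isPreconnected_Ici.prod isPreconnected_univ).mapsTo_Ioi_or_Iio (f := nx m j) (b := 0)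
    (s := Ici R ×ˢ univ) (fun p hp => (cont_nx m j (hR p hp.1).2).continuousWithinAt)
    fun p hp => (ep_nx_ne m j (hR p hp.1).2 (hR p hp.1).1).2
  unfold sg
  split_ifs with h1
  · simpa using h1
  · have h2 := h.resolve_left fun h2 => h1 (ev_far.2 ⟨R, fun p hp => h2 ⟨hp, trivial⟩⟩)
    exact ev_far.2 ⟨R, fun p hp => by simpa using h2 ⟨hp, trivial⟩⟩

/-- the level `b` is admissible -/
structure Lev (b : ℝ) : Prop where
  lt : m.w0 + 1 < b
  G : ∀ j (p : ℝ × ℝ), b ≤ p.1 → 0 < ((fq m j).G p.2 (tb m j p)).re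
  sg : ∀ j (p : ℝ × ℝ), b ≤ p.1 → 0 < sg m j * nx m j p

theorem ev_lev [Finite ι] [Finite κ] : ∀ᶠ b in atTop, Lev m b := by
  obtain ⟨R, hR⟩ := ev_far.1 (eventually_all.2 fun j => (ev_G m j).and (ev_sg m j))
  filter_upwards [eventually_ge_atTop R, eventually_gt_atTop (m.w0 + 1)] with b h1 h2
  exact ⟨h2, fun j p hp => (hR p (h1.trans hp) j).1, fun j p hp => (hR p (h1.trans hp) j).2⟩

end Vale.Agent.P218OP
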