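import Vale.Agent.P218CN.Op
import Vale.Agent.P218XI.S
import Vale.Agent.P218GA.Dec

/-! The operators of the cylindrical and of the conical ends of the model. -/

open Set Filter Topology Complex
open scoped ContDiff

noncomputable section

namespace Vale.Agent.P218OP

open Vale.Agent.P218VA Vale.Agent.P218CO Vale.Agent.P218XI Vale.Agent.P218MP
open Vale.Agent.P218GA (E3 Model dw dth far ev_gt ev_far toZero_iff ToZero)
open Vale.Agent.P218EN (pa11 pa12 pa22 pb pb0 pE xf ef)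
open Vale.Agent.P218CN (coneOp)

/-- the two-jet of a tower of derivatives -/
def tj (T : ℕ → ℕ → ℝ × ℝ → ℂ) (p : ℝ × ℝ) : J2 ℂ :=
  ((T 0 0 p, T 1 0 p, T 0 1 p), (T 2 0 p, T 1 1 p, T 0 2 p))

/-- principal coefficients on a cylindrical end at `k = (U - 1, U_w, U_θ)` -/
def cylA (w : ℝ) (k : T3 ℂ) : T3 ℂ :=
  (2 * w * pa11 (ef 0 w) k.1 k.2.2, pa12 (ef 0 w) 1 k.1 k.2.2 (2 * w * k.2.1),
    pa22 (xf w) (ef 0 w) k.1 (2 * w * k.2.1))

/-- lower order part on a cylindrical end -/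
def cylB (w : ℝ) (k : T3 ℂ) : ℂ := pb (xf w) (xf w) (ef 0 w) k.1 k.2.2 (2 * w * k.2.1)

/-- the operator at the base jet `J` -/
def shift (A : ℝ × ℝ → T3 ℂ → T3 ℂ) (B : ℝ × ℝ → T3 ℂ → ℂ) (J : ℝ × ℝ → J2 ℂ) : EndOp :=
  ⟨fun p j => A p ((J p).1 + j), fun p j => B p ((J p).1 + j), fun p => (J p).2⟩

variable {S : Set E3} {w : E3 → ℝ} {δ C : ℝ} {ι κ M : Type} [TopologicalSpace M]
  [ChartedSpace E2 M] (m : Model S w δ C ι κ M)

/-- the operator of a cylindrical end -/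
def cylOp (i : ι) : EndOp := shift (fun p => cylA p.1) (fun p => cylB p.1) (tj (TU m i))

/-- the operator of an end -/
def endOp : ι ⊕ κ → EndOp := Sum.elim (cylOp m) (coneOp m)

lemma cylOp_E (i : ι) (p : ℝ × ℝ) (j : J2 ℂ) : (cylOp m i).E p j =
    pE (xf p.1) (xf p.1) (ef 0 p.1) 1 (TU m i 0 0 p + j.1.1) (TU m i 0 1 p + j.1.2.2)
      (TU m i 0 2 p + j.2.2.2) (2 * p.1 * (TU m i 1 0 p + j.1.2.1))
      (2 * p.1 * (TU m i 2 0 p + j.2.1)) (TU m i 1 1 p + j.2.2.1) := by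
  simp only [EndOp.E, cylOp, shift, pair, cylA, cylB, tj, pE, Prod.fst_add, Prod.snd_add]
  ring

/-! ### towers of derivatives -/

section tower
variable {F : Type*} [NormedAddCommGroup F] [NormedSpace ℝ F] {f : ℝ × ℝ → F}

lemma per_pd (h : Per f) (v : ℝ × ℝ) : Per (pd f v) := fun x θ => by
  have e : (fun q : ℝ × ℝ => f (q + (0, 2 * Real.pi))) = f := funext fun q => by
    rw [← h q.1 q.2]; congr 1; ext <;> simp
  have h1 := fderiv_comp_add_right (𝕜 := ℝ) (f := f) (x := (x, θ)) (0, 2 * Real.pi)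
  rw [e] at h1
  rw [pd, pd, h1]
  simp

lemma per_iter (h : Per f) (a b : ℕ) : Per (dw^[a] (dth^[b] f)) := by
  have h1 : Per (dth^[b] f) := by
    induction b with
    | zero => exact h
    | succ n ih => rw [Function.iterate_succ_apply']; exact per_pd ih _
  induction a with
  | zero => exact h1
  | succ n ih => rw [Function.iterate_succ_apply']; exact per_pd ih _

lemma smooth_iter {p : ℝ × ℝ} (h : ContDiffAt ℝ ∞ f p) (a b : ℕ) :
    ContDiffAt ℝ ∞ (dw^[a] (dth^[b] f)) p := by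
  have h1 : ContDiffAt ℝ ∞ (dth^[b] f) p := by
    induction b with
    | zero => exact h
    | succ n ih => rw [Function.iterate_succ_apply']; exact contDiffAt_pd ih (by simp) _
  induction a with
  | zero => exact h1
  | succ n ih => rw [Function.iterate_succ_apply']; exact contDiffAt_pd ih (by simp) _

lemma per_pj (h : Per f) : Per (pj f) := fun x θ => by
  simp only [pj, cj, h x θ, per_pd h _ x θ, per_pd (per_pd h _) _ x θ]

lemma pd_ofReal {D : Type*} [NormedAddCommGroup D] [NormedSpace ℝ D] (f : D → ℝ) (v : D) :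
    pd (fun q => (f q : ℂ)) v = fun q => ((pd f v q : ℝ) : ℂ) := by
  funext q
  by_cases h : DifferentiableAt ℝ f q
  · exact pd_clm ofRealCLM h v
  · have h1 : ¬ DifferentiableAt ℝ (fun q => (f q : ℂ)) q := fun h1 =>
      h (reCLM.differentiableAt.comp q h1)
    simp [pd, fderiv_zero_of_not_differentiableAt h, fderiv_zero_of_not_differentiableAt h1]

lemma cj_ofReal {D : Type*} [NormedAddCommGroup D] [NormedSpace ℝ D] (f : D → ℝ) (d1 d2 q : D) :
    cj d1 d2 (fun q => (f q : ℂ)) q = jmap ofRealCLM (cj d1 d2 f q) := by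
  simp only [cj, pd_ofReal, jmap_apply, ofRealCLM_apply]

lemma star_cj_ofReal {D : Type*} [NormedAddCommGroup D] [NormedSpace ℝ D] (f : D → ℝ)
    (d1 d2 q : D) : star (cj d1 d2 (fun q => (f q : ℂ)) q) = cj d1 d2 (fun q => (f q : ℂ)) q := by
  simp only [cj, pd_ofReal, Prod.star_def, RCLike.star_def, conj_ofReal]

end tower

/-- a smooth, real, periodic tower -/
structure RTow (w0 : ℝ) (T : ℕ → ℕ → ℝ × ℝ → ℂ) : Prop where
  tow : Tow w0 T
  per : ∀ a b, Per (T a b)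
  sm : ∀ a b p, w0 < p.1 → ContDiffAt ℝ ∞ (T a b) p
  real : ∀ a b p, star (T a b p) = T a b p

lemma rtow_cyl (i : ι) : RTow m.w0 (TU m i) :=
  ⟨tow_cyl m i, fun a b x θ => congrArg ofReal
      (per_iter (f := fun q => m.U i q - 1) (fun x θ => by simp only [m.U_periodic]) a b x θ),
    fun a b p hp => ofRealCLM.contDiff.contDiffAt.comp p
      (smooth_iter ((m.U_smooth i p hp).sub contDiffAt_const) a b), fun _ _ _ => conj_ofReal _⟩

lemma rtow_cone (j : κ) : RTow m.w0 (Tt m j) :=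
  ⟨tow_cone m j, fun a b x θ => congrArg ofReal (per_iter (m.t_periodic j) a b x θ),
    fun a b p hp => ofRealCLM.contDiff.contDiffAt.comp p (smooth_iter (m.t_smooth j p hp) a b),
    fun _ _ _ => conj_ofReal _⟩

namespace RTow
variable {w0 : ℝ} {T : ℕ → ℕ → ℝ × ℝ → ℂ} (h : RTow w0 T)
include h

lemma per_tj : Per (tj T) := fun x θ => by simp only [tj, h.per _ _ x θ]

lemma sm_tj {p : ℝ × ℝ} (hp : w0 < p.1) : ContDiffAt ℝ ∞ (tj T) p :=
  ((h.sm 0 0 p hp).prodMk ((h.sm 1 0 p hp).prodMk (h.sm 0 1 p hp))).prodMk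
    ((h.sm 2 0 p hp).prodMk ((h.sm 1 1 p hp).prodMk (h.sm 0 2 p hp)))

lemma real_tj (p : ℝ × ℝ) : star (tj T p) = tj T p := by
  simp only [tj, Prod.star_def, h.real]

lemma pj_eq {p : ℝ × ℝ} (hp : w0 < p.1) : pj (T 0 0) p = tj T p := by
  obtain ⟨e1, e2, e3, e4, e5⟩ := P218EF.pd_jet2 (h.tow.jet2 (I := Ioi w0) (fun _ h => h) 0 0)
    (p := p) (by rwa [interior_Ioi])
  rw [pj, cj, e1, e2, e3, e4, e5, tj]

lemma lim (a b : ℕ) : Tendsto (fun p => (p.1 : ℂ) ^ a * T a b p) far (𝓝 0) :=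
  toZero_iff.1 (h.tow.lim a b)

end RTow

lemma tendsto_fst_far : Tendsto (fun p : ℝ × ℝ => p.1) far atTop := tendsto_comap

lemma tendsto_inv_far : Tendsto (fun p : ℝ × ℝ => (p.1 : ℂ)⁻¹) far (𝓝 0) := by
  have := (continuous_ofReal.tendsto 0).comp (tendsto_inv_atTop_zero.comp tendsto_fst_far)
  simpa [Function.comp_def] using this

lemma tendsto_xf : Tendsto (fun p : ℝ × ℝ => xf p.1) far (𝓝 0) := by
  simpa [xf] using tendsto_inv_far.mul_const (2 : ℂ)⁻¹

lemma tendsto_ef : Tendsto (fun p : ℝ × ℝ => ef 0 p.1) far (𝓝 0) := by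
  simpa [ef] using tendsto_inv_far.mul_const (8 : ℂ)⁻¹

lemma RTow.lim' {w0 : ℝ} {T : ℕ → ℕ → ℝ × ℝ → ℂ} (h : RTow w0 T) (c : ℂ) (a b n : ℕ)
    (hn : n ≤ a) : Tendsto (fun p => c * (p.1 : ℂ) ^ n * T a b p) far (𝓝 0) := by
  obtain ⟨k, rfl⟩ := Nat.exists_eq_add_of_le hn
  have h1 := ((h.lim (n + k) b).mul (tendsto_inv_far.pow k)).const_mul c
  rw [zero_mul, mul_zero] at h1
  refine h1.congr' ?_
  filter_upwards [ev_gt 0] with p hp
  have : (p.1 : ℂ) ≠ 0 := ofReal_ne_zero.2 hp.ne'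
  rw [inv_pow, pow_add]
  field_simp

/-- limits which are uniform in a compact parameter -/
lemma tendsto_unif {A Z Y X : Type*} [TopologicalSpace A] [TopologicalSpace Z]
    [TopologicalSpace Y] {K : Set A} (hK : IsCompact K) {Φ : A × Z → Y} (hΦ : Continuous Φ)
    {z0 : Z} {L : Y} (h0 : ∀ k, Φ (k, z0) = L) {l : Filter X} {β : X → A} (hβ : ∀ p, β p ∈ K)
    {z : X → Z} (hz : Tendsto z l (𝓝 z0)) : Tendsto (fun p => Φ (β p, z p)) l (𝓝 L) := by
  intro U hU
  have h1 : ∀ᶠ y in 𝓝 z0, ∀ k ∈ K, Φ (k, y) ∈ U :=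
    hK.eventually_forall_of_forall_eventually fun k _ =>
      (hΦ.comp continuous_swap).continuousAt (x := (z0, k)) (by rwa [Function.comp, Prod.swap, h0])
  exact (hz.eventually h1).mono fun p hp => hp _ (hβ p)

section der
variable {A V W : Type*} [NormedAddCommGroup A] [NormedSpace ℂ A] [NormedAddCommGroup V]
  [NormedSpace ℂ V] [NormedAddCommGroup W] [NormedSpace ℂ W]

lemma fderiv_line {Θ : A → W} {z e : A} {c : W} (hΘ : DifferentiableAt ℂ Θ z)
    (h : HasDerivAt (fun t : ℂ => Θ (z + t • e)) c 0) : fderiv ℂ Θ z e = c :=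
  (hΘ.hasFDerivAt.hasLineDerivAt e).unique h

lemma fderiv_aff {Θ : A → W} (hΘ : Differentiable ℂ Θ) (z : A) (N : V →L[ℂ] A) (v : V) :
    fderiv ℂ (fun j => Θ (z + N j)) 0 v = fderiv ℂ Θ z (N v) := by
  have h1 := (hΘ (z + N 0)).hasFDerivAt.comp 0 (N.hasFDerivAt.const_add z)
  rw [show (fun j => Θ (z + N j)) = Θ ∘ fun j => z + N j from rfl, h1.fderiv]
  simp

end der

/-! ### general facts on operators -/

lemma diff_E {o : EndOp} {s : ℝ} (h : o.Good s) {p : ℝ × ℝ} (hp : s < p.1) :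
    DifferentiableAt ℂ (o.E p) 0 := by
  have ha : DifferentiableAt ℂ (o.a p) (0 : J2 ℂ).1 := (h.mixa p hp).hol.self_of_nhds
  have hb : DifferentiableAt ℂ (o.b p) (0 : J2 ℂ).1 := (h.mixb p hp).hol.self_of_nhds
  have h1 := ha.comp (0 : J2 ℂ) differentiableAt_fst
  have h2 := hb.comp (0 : J2 ℂ) differentiableAt_fst
  unfold EndOp.E pair
  exact (((h1.fst.mul (by fun_prop)).add (h1.snd.fst.mul (by fun_prop))).add
    (h1.snd.snd.mul (by fun_prop))).add h2

lemma L_hess {o : EndOp} {p : ℝ × ℝ} (h : DifferentiableAt ℂ (o.E p) 0) (k : T3 ℂ) :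
    o.L p (0, k) = pair (o.a p 0) k := by
  refine fderiv_line h ?_
  have e : (fun t : ℂ => o.E p (0 + t • (0, k))) = fun t => o.E p 0 + t * pair (o.a p 0) k := by
    ext t
    simp only [EndOp.E, zero_add, Prod.smul_mk, smul_zero, pair_add, pair_smul, Prod.fst_zero,
      Prod.snd_zero, pair_zero]
    ring
  rw [e]
  simpa using ((hasDerivAt_id (0 : ℂ)).mul_const (pair (o.a p 0) k)).const_add (o.E p 0)

lemma fderiv_flip {V : Type*} [NormedAddCommGroup V] [NormedSpace ℂ V] {g : V → ℂ}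
    (h : DifferentiableAt ℂ g 0) : fderiv ℂ (fun j => -g (-j)) 0 = fderiv ℂ g 0 := by
  have h1 : HasFDerivAt g (fderiv ℂ g 0) (-0) := by rw [neg_zero]; exact h.hasFDerivAt
  have h2 := (h1.comp 0 (hasFDerivAt_id (0 : V)).neg).neg
  refine (HasFDerivAt.fderiv h2).trans ?_
  ext v
  simp

lemma flip_L {o : EndOp} {p : ℝ × ℝ} (h : DifferentiableAt ℂ (o.E p) 0) : o.flip.L p = o.L p := by
  rw [EndOp.L, EndOp.L, ← fderiv_flip h]
  congr 1
  exact funext (o.flip_E p)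

lemma good_flip {o : EndOp} {s : ℝ} (h : o.Good s) : o.flip.Good s := by
  have hn : ∀ p : ℝ × ℝ, Mix (fun q : (ℝ × ℝ) × T3 ℂ => -q.2) (p, 0) := fun p =>
    Mix.snd.comp (Θ := fun z => -z) (by fun_prop)
  have hc : ∀ p : ℝ × ℝ, ContDiffAt ℝ 2 (fun q : (ℝ × ℝ) × T3 ℂ => (q.1, -q.2)) (p, 0) :=
    fun p => by fun_prop
  have hb : ∀ p : ℝ × ℝ, s < p.1 → fderiv ℂ (o.flip.b p) 0 = fderiv ℂ (o.b p) 0 := fun p hp =>
    fderiv_flip (h.mixb p hp).hol.self_of_nhds
  have h0 : ∀ p, o.flip.a p 0 = o.a p 0 := fun p => by simp [EndOp.flip]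
  refine ⟨fun x θ => by simp only [EndOp.flip, h.pa x θ],
    fun x θ => by simp only [EndOp.flip, h.pb x θ], fun x θ => by simp only [EndOp.flip, h.pH x θ],
    fun p hp => Mix.comp_snd (g := fun q => o.a q.1 q.2) (hn p) (by simpa using h.mixa p hp),
    fun p hp => (Mix.comp_snd (g := fun q => o.b q.1 q.2) (hn p)
      (by simpa using h.mixb p hp)).comp (Θ := fun z => -z) (by fun_prop),
    fun p hp => ContDiffAt.comp (g := fun q : (ℝ × ℝ) × T3 ℂ => o.a q.1 q.2) (p, 0)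
      (by simpa using h.cda p hp) (hc p),
    fun p hp => (ContDiffAt.comp (g := fun q : (ℝ × ℝ) × T3 ℂ => o.b q.1 q.2) (p, 0)
      (by simpa using h.cdb p hp) (hc p)).neg,
    fun p hp => (h.cdH p hp).neg, fun p hp => by rw [o.flip_E, neg_zero, h.base p hp, neg_zero],
    fun p j hj => h.ra p _ (by rw [star_neg, hj]),
    fun p j hj => by simp only [EndOp.flip, star_neg, h.rb p (-j) (by rw [star_neg, hj])],
    fun p => by simp only [EndOp.flip, star_neg, h.rH], fun p hp => by rw [h0]; exact h.ell p hp,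
    fun p hp => by rw [hb p hp]; exact h.sup1 p hp,
    fun p hp => by rw [hb p hp, h0]; exact h.sup0 p hp⟩

lemma ext_flip {o : EndOp} {s : ℝ} (h : o.Good s) (h' : o.Ext s) : o.flip.Ext s := fun p hp => by
  rw [flip_L (diff_E h hp)]; exact h' p hp

lemma ext_mono {o : EndOp} {s s' : ℝ} (h : o.Ext s) (hs : s ≤ s') : o.Ext s' :=
  fun p hp => h p (hs.trans_lt hp)

end Vale.Agent.P218OP
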