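import Vale.Agent.P218OP.Nj

/-! The linearisation of the geometric operator is the stability operator. -/

open Set Filter Topology Complex
open scoped ContDiff Matrix RealInnerProductSpace

noncomputable section

set_option linter.unusedSectionVars false
set_option synthInstance.maxSize 2048

namespace Vale.Agent.P218OP

open Vale.Agent.P218VA Vale.Agent.P218CO Vale.Agent.P218XI Vale.Agent.P218MP Vale.Agent.P218ND
open Vale.Agent.P272.K.LIN (RSm)
open Vale.Agent.P218GA (E3 Model cx)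

variable {S : Set E3} {w : E3 → ℝ} {δ C : ℝ} {ι κ M : Type} [TopologicalSpace M]
  [ChartedSpace E2 M] [Fintype ι] [Fintype κ] (m : Model S w δ C ι κ M) (ε : ι ⊕ κ → Bool) (a : ℝ)

/-- the velocity of the surfaces given by `t U` and `t B` -/
def vel (U : M → ℂ) (B : ι × Fin 2 → ℂ) (x : M) : C3 :=
  U x • Tv m ε a x 0 0 + om (coef m ε a x) B ⨯₃ cx (m.F x)

/-- its normal component -/
def nuc (U : M → ℂ) (B : ι × Fin 2 → ℂ) (x : M) : ℂ := th m ε a x * U x + tlc m ε a B x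

/-- the normal component of a real infinitesimal tilt -/
def tl (B : ι × Fin 2 → ℝ) (x : M) : ℝ := (tlc m ε a (fun i => B i) x).re

/-- the normal velocity for real data -/
def nu0 (U : M → ℝ) (B : ι × Fin 2 → ℝ) (x : M) : ℝ := th m ε a x * U x + tl m ε a B x

variable {m ε a} {e : OpenPartialHomeomorph M E2} {x : M} {U : M → ℂ} {B : ι × Fin 2 → ℂ}

lemma nuc_eq (hx : x ∈ m.reg) : nuc m ε a U B x = cx (m.nu x) ⬝ᵥ vel m ε a U B x := by
  rw [vel, dotProduct_add, dotProduct_smul, th_eq hx, nuc, smul_eq_mul, mul_comm, tlc]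

lemma tl_eq (hx : x ∈ m.reg) (B : ι × Fin 2 → ℝ) :
    tlc m ε a (fun i => B i) x = (tl m ε a B x : ℝ) :=
  (conj_eq_iff_re.1 (by
    rw [← RCLike.star_def, tlc, star_dot, star_cross, star_cx, star_cx,
      star_om (star_z hx (star_zero _) (funext fun i => conj_ofReal _))])).symm

lemma nuc_ofReal (hx : x ∈ m.reg) (U : M → ℝ) (B : ι × Fin 2 → ℝ) :
    nuc m ε a (fun y => U y) (fun i => B i) x = (nu0 m ε a U B x : ℝ) := by
  rw [nuc, tl_eq hx, nu0]
  push_cast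
  rfl

lemma tl_below (hx : x ∈ (ends m).below (a + 1)) (B : ι × Fin 2 → ℝ) : tl m ε a B x = 0 := by
  rw [tl, tlc_below hx, zero_re]

lemma nu0_below (hx : x ∈ (ends m).below a) (U : M → ℝ) (B : ι × Fin 2 → ℝ) :
    nu0 m ε a U B x = U x := by
  rw [nu0, th_below hx, tl_below (Ends.below_mono (by linarith) hx), one_mul, add_zero]

lemma fderiv_Th_eq (hx : x ∈ m.reg) :
    fderiv ℂ Th (coef m ε a x, 0, 0) (0, U x, B) = vel m ε a U B x := by
  rw [fderiv_Th (ok_coef (B := 0) hx (by simp) (by simp)).1, X0_zero hx, vel, Tv_zero hx]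

variable [T2Space M] [RSm E2 M] [CompactSpace M]

lemma ckAt_Tv (ha : m.w0 + 1 < a) (hx : x ∈ m.reg) : CkAt ∞ (fun y => Tv m ε a y 0 0) x := by
  refine CkAt.congr (X := fun y => ThU (coef m ε a y, 0, 0)) (fun e he hxe => ?_)
    ((ev_reg m hx).mono fun _ hz => Tv_eq hz)
  refine ContDiffAt.comp (g := ThU) (e x) ?_
    (cd_arg (U := fun _ => 0) ha le_rfl hx (fun _ _ _ => contDiffAt_const) e he hxe)
  rw [e.left_inv hxe]
  exact (ok_coef hx (by simp) (by simp)).cd_ThU.restrict_scalars ℝ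

lemma ckAt_cx {k : WithTop ℕ∞} {f : M → E3} (h : CkAt k f x) : CkAt k (fun y => cx (f y)) x :=
  fun e he hxe => cx.contDiff.contDiffAt.comp _ (h e he hxe)

lemma ckAt_om (ha : m.w0 + 1 < a) (hx : x ∈ m.reg) :
    CkAt ∞ (fun y => om (coef m ε a y) B) x := fun e he hxe =>
  ContDiffAt.comp (g := fun z : Co (ι × Fin 2) × ℂ × (ι × Fin 2 → ℂ) => om z.1 z.2.2) (e x)
    (cd_om.contDiffAt.restrict_scalars ℝ)
    (cd_arg (U := fun _ => 0) ha le_rfl hx (fun _ _ _ => contDiffAt_const) e he hxe)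

lemma ckAt_vel (ha : m.w0 + 1 < a) {k : WithTop ℕ∞} (hk : k ≤ ∞) (hx : x ∈ m.reg)
    (hU : CkAt k U x) : CkAt k (vel m ε a U B) x :=
  (hU.csmul ((ckAt_Tv ha hx).of_le hk)).add fun e he hxe => contDiffAt_cross
    ((ckAt_om ha hx).of_le hk e he hxe) ((ckAt_cx (m.ckAt_F hx)).of_le hk e he hxe)

lemma ckAt_th (ha : m.w0 + 1 < a) (hx : x ∈ m.reg) : CkAt ∞ (th m ε a) x :=
  ckAt_re fun e he hxe => contDiffAt_dot (ckAt_cx (m.ckAt_nu hx) e he hxe) (ckAt_Tv ha hx e he hxe)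

lemma ckAt_tlc (ha : m.w0 + 1 < a) (hx : x ∈ m.reg) : CkAt ∞ (tlc m ε a B) x :=
  fun e he hxe => contDiffAt_dot (ckAt_cx (m.ckAt_nu hx) e he hxe)
    (contDiffAt_cross (ckAt_om ha hx e he hxe) (ckAt_cx (m.ckAt_F hx) e he hxe))

lemma ckAt_tl (ha : m.w0 + 1 < a) (hx : x ∈ m.reg) (B : ι × Fin 2 → ℝ) :
    CkAt ∞ (tl m ε a B) x := ckAt_re (ckAt_tlc ha hx)

lemma ckAt_nu0 (ha : m.w0 + 1 < a) {k : WithTop ℕ∞} (hk : k ≤ ∞) (hx : x ∈ m.reg) {U : M → ℝ}
    (hU : CkAt k U x) (B : ι × Fin 2 → ℝ) : CkAt k (nu0 m ε a U B) x :=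
  CkAt.add (fun e he hxe => ((ckAt_th ha hx).of_le hk e he hxe).mul (hU e he hxe))
    ((ckAt_tl ha hx B).of_le hk)

/-- the derivative of the jets of the surfaces given by `t U` and `t B` -/
theorem hasDerivAt_jz (ha : m.w0 + 1 < a) (he : e ∈ atlas E2 M) (hxe : x ∈ e.source)
    (hx : x ∈ m.reg) (hU : CkAt 2 U x) :
    HasDerivAt (fun t : ℂ => jcomp Th (jz m ε a e (e x) (t • (cj u1 u2 (cX e U) (e x), B))))
      (cj u1 u2 (cX e (vel m ε a U B)) (e x)) 0 := by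
  have hg := cd_arg (ε := ε) (U := fun _ => 0) (B := 0) ha two_le_inf hx
    (fun _ _ _ => contDiffAt_const) e he hxe
  have hh : ContDiffAt ℝ 2 (cX e fun z => ((0 : Co (ι × Fin 2)), U z, B)) (e x) :=
    contDiffAt_const.prodMk ((hU e he hxe).prodMk contDiffAt_const)
  have h := hasDerivAt_cj (d1 := u1) (d2 := u2) (Θ := Th) (by
    rw [cX_self _ hxe]; exact (ok_coef hx (by simp) (by simp)).cd_Th) hg hh
  have h1 : cj u1 u2 (cX e fun z => ((0 : Co (ι × Fin 2)), U z, B)) (e x)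
      = jzip 0 (jzip (cj u1 u2 (cX e U) (e x)) (jconst B)) := by
    rw [← cj_const (d1 := u1) (d2 := u2) (x := e x), ← cj_prod (hU e he hxe) contDiffAt_const,
      ← cj_zero (d1 := u1) (d2 := u2) (x := e x),
      ← cj_prod contDiffAt_const ((hU e he hxe).prodMk contDiffAt_const)]
    rfl
  rw [cj_arg ha he hxe hx (fun _ _ _ => contDiffAt_const), h1,
    show cj u1 u2 (cX e fun _ : M => (0 : ℂ)) (e x) = 0 from cj_zero] at h
  refine (h.congr_deriv (cj_congr (cX_congr (X := fun z => fderiv ℂ Th (coef m ε a z, 0, 0)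
    (0, U z, B)) hxe ((ev_reg m hx).mono fun _ hz => fderiv_Th_eq hz)))).congr_of_eventuallyEq
    (Eventually.of_forall fun t => congrArg (jcomp Th) ?_)
  simp [jz, jzip, jconst]

/-- **The linearisation of the geometric operator.** -/
theorem hasDerivAt_geoN (ha : m.w0 + 1 < a) (hx : x ∈ m.reg) (hU : CkAt 2 U x) :
    HasDerivAt (fun t : ℂ => geoN m ε a (fun y => t * U y) (fun i => t * B i) x)
      (th m ε a x * LMc m (nuc m ε a U B) x) 0 := by
  have he := chart_mem_atlas E2 x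
  have hxe := mem_chart_source E2 x
  generalize chartAt E2 x = e at he hxe
  have h0 : Ok (coef m ε a x, (0 : ℂ), (0 : ι × Fin 2 → ℂ)) := ok_coef hx (by simp) (by simp)
  have h1 := hasDerivAt_line ((h0.cd_ThU (n := 1)).differentiableAt one_ne_zero) (0, U x, B)
  have h2 := (hasDerivAt_ELj_chart m he hx hxe (ckAt_vel (ε := ε) (B := B) ha two_le_inf hx hU)
    ((ev_reg m hx).mono fun _ hz => nuc_eq hz) (hasDerivAt_jz (ε := ε) (B := B) ha he hxe hx hU)
    (by rw [zero_smul, jcomp_zero ha he hxe hx]) h1).neg.mul_const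
    (LagF u1 u2 (cX e fun z => cx (m.F z)) (e x))⁻¹
  have h3 := (m.rimm.imm hx).lag_ne he hxe
  rw [zero_smul, add_zero, ← Tv_eq hx, th_eq hx] at h2
  refine (h2.congr_deriv (by field_simp)).congr_of_eventuallyEq ?_
  have h4 : ∀ᶠ t : ℂ in 𝓝 0, ‖t * U x‖ < 1 :=
    (by fun_prop : Continuous fun t : ℂ => ‖t * U x‖).continuousAt.eventually_lt_const (by simp)
  have h5 : ∀ᶠ t : ℂ in 𝓝 0, ‖t • B‖ < 1 :=
    (by fun_prop : Continuous fun t : ℂ => ‖t • B‖).continuousAt.eventually_lt_const (by simp)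
  filter_upwards [h4, h5] with t h4 h5
  have h6 : cj u1 u2 (cX e fun y => t * U y) (e x) = t • cj u1 u2 (cX e U) (e x) :=
    cj_csmul t (hU e he hxe)
  rw [show (fun i => t * B i) = t • B from rfl, Nj_chart ha he hxe hx
    (fun e he hxe => contDiffAt_const.mul (hU e he hxe)) h4 h5, h6, Nj, jz_fst hxe]
  simp [cj, cX_self _ hxe]

/-- **The dictionary.** -/
theorem linSol_iff (ha : m.w0 + 1 < a) {op : ι ⊕ κ → EndOp}
    {N : OpenPartialHomeomorph M E2 → E2 → J2 ℂ × (ι × Fin 2 → ℂ) → ℂ}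
    {G : ι ⊕ κ → ℝ × ℝ → T3 ℂ → ℂ} {U : M → ℝ} {B : ι × Fin 2 → ℝ} {f : M → ℝ} :
    (geoOp m ε a op N G).LinSol U B f ↔
      ∀ x ∈ m.reg, CkAt 2 U x ∧ th m ε a x * LM m (nu0 m ε a U B) x = f x := by
  refine forall₂_congr fun x hx => and_congr_right fun hU => ?_
  have h := hasDerivAt_geoN (ε := ε) (B := fun i => B i) ha hx hU.ofReal
  rw [LMc_congr m ((ev_reg m hx).mono fun _ hz => nuc_ofReal hz U B), LMc_ofReal m hx,
    ← ofReal_mul] at h
  exact ⟨fun h' => ofReal_injective (h.unique h'), fun h' => h' ▸ h⟩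

end Vale.Agent.P218OP
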