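import Vale.Agent.P218CO.Jet2
import Mathlib.Analysis.Calculus.FDeriv.Symmetric

/-! The derivative of the action of a holomorphic map on jets; real jets. -/

open Set Filter Topology Complex
open scoped ContDiff

noncomputable section

namespace Vale.Agent.P218OP

open Vale.Agent.P218VA Vale.Agent.P218CO

variable {Z W : Type*} [NormedAddCommGroup Z] [NormedSpace ℂ Z] [NormedAddCommGroup W]
  [NormedSpace ℂ W] {Θ : Z → W} {z : Z}

lemma symm2 (hΘ : ContDiffAt ℂ 2 Θ z) (a b : Z) :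
    fderiv ℂ (fderiv ℂ Θ) z a b = fderiv ℂ (fderiv ℂ Θ) z b a :=
  hΘ.isSymmSndFDerivAt (by simp) a b

lemma symm3a (hΘ : ContDiffAt ℂ 3 Θ z) (a b : Z) :
    fderiv ℂ (fderiv ℂ (fderiv ℂ Θ)) z a b = fderiv ℂ (fderiv ℂ (fderiv ℂ Θ)) z b a :=
  symm2 (hΘ.fderiv_right (m := 2) (by norm_num)) a b

lemma symm3b (hΘ : ContDiffAt ℂ 3 Θ z) (a b c : Z) :
    fderiv ℂ (fderiv ℂ (fderiv ℂ Θ)) z a b c = fderiv ℂ (fderiv ℂ (fderiv ℂ Θ)) z a c b := by
  have h2 : DifferentiableAt ℂ (fderiv ℂ (fderiv ℂ Θ)) z :=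
    ((hΘ.fderiv_right (m := 2) (by norm_num)).fderiv_right (m := 1) (by norm_num)).differentiableAt
      one_ne_zero
  have h3 := fun b c : Z => (h2.hasFDerivAt.clm_apply (hasFDerivAt_const b z)).clm_apply
    (hasFDerivAt_const c z)
  have h4 : (fun y => fderiv ℂ (fderiv ℂ Θ) y b c) =ᶠ[𝓝 z] fun y => fderiv ℂ (fderiv ℂ Θ) y c b := by
    filter_upwards [(hΘ.of_le (m := 2) (by norm_num)).eventually (by simp)] with y hy
    exact symm2 hy b c
  simpa using congrArg (fun L : Z →L[ℂ] W => L a)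
    ((h3 b c).unique ((h3 c b).congr_of_eventuallyEq h4))

lemma hasDerivAt_aff (a b : Z) : HasDerivAt (fun t : ℂ => a + t • b) b 0 := by
  simpa using ((hasDerivAt_id (0 : ℂ)).smul_const b).const_add a

lemma hasDerivAt_line (h : DifferentiableAt ℂ Θ z) (v : Z) :
    HasDerivAt (fun t : ℂ => Θ (z + t • v)) (fderiv ℂ Θ z v) 0 :=
  HasFDerivAt.comp_hasDerivAt_of_eq 0 h.hasFDerivAt (hasDerivAt_aff z v) (by simp)

/-- the tangent map -/
def tmap (Θ : Z → W) (q : Z × Z) : W := fderiv ℂ Θ q.1 q.2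

lemma contDiffAt_tmap {n : WithTop ℕ∞} {q : Z × Z} (hΘ : ContDiffAt ℂ (n + 1) Θ q.1) :
    ContDiffAt ℂ n (tmap Θ) q :=
  ((hΘ.fderiv_right le_rfl).comp q contDiffAt_fst).clm_apply contDiffAt_snd

lemma fderiv_tmap {q : Z × Z} (hΘ : ContDiffAt ℂ 2 Θ q.1) (v : Z × Z) :
    fderiv ℂ (tmap Θ) q v = fderiv ℂ (fderiv ℂ Θ) q.1 v.1 q.2 + fderiv ℂ Θ q.1 v.2 := by
  have h2 : DifferentiableAt ℂ (fderiv ℂ Θ) q.1 :=
    (hΘ.fderiv_right (m := 1) (by norm_num)).differentiableAt one_ne_zero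
  have h := (h2.hasFDerivAt.comp q hasFDerivAt_fst).clm_apply (hasFDerivAt_snd (p := q))
  rw [show fderiv ℂ (tmap Θ) q = _ from h.fderiv]
  simp [add_comm]

lemma fderiv_tmap2 {q : Z × Z} (hΘ : ContDiffAt ℂ 3 Θ q.1) (v v' : Z × Z) :
    fderiv ℂ (fderiv ℂ (tmap Θ)) q v' v = fderiv ℂ (fderiv ℂ (fderiv ℂ Θ)) q.1 v'.1 v.1 q.2
      + fderiv ℂ (fderiv ℂ Θ) q.1 v.1 v'.2 + fderiv ℂ (fderiv ℂ Θ) q.1 v'.1 v.2 := by
  have h1 := hΘ.fderiv_right (m := 2) (by norm_num)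
  have h2 : DifferentiableAt ℂ (fderiv ℂ Θ) q.1 := h1.differentiableAt two_ne_zero
  have h3 : DifferentiableAt ℂ (fderiv ℂ (fderiv ℂ Θ)) q.1 :=
    (h1.fderiv_right (m := 1) (by norm_num)).differentiableAt one_ne_zero
  have h4 : DifferentiableAt ℂ (fderiv ℂ (tmap Θ)) q :=
    ((contDiffAt_tmap (n := 2) hΘ).fderiv_right (m := 1) (by norm_num)).differentiableAt
      one_ne_zero
  have h5 := (ContinuousLinearMap.apply ℂ W v).hasFDerivAt.comp q h4.hasFDerivAt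
  have h6 := (((h3.hasFDerivAt.comp q hasFDerivAt_fst).clm_apply
    (hasFDerivAt_const v.1 q)).clm_apply (hasFDerivAt_snd (p := q))).add
    ((h2.hasFDerivAt.comp q hasFDerivAt_fst).clm_apply (hasFDerivAt_const v.2 q))
  have h7 : ∀ᶠ y : Z × Z in 𝓝 q, ContDiffAt ℂ 2 Θ y.1 :=
    continuous_fst.continuousAt.eventually
      ((hΘ.of_le (m := 2) (by norm_num)).eventually (by simp))
  have h8 := congrArg (fun L : Z × Z →L[ℂ] W => L v')
    (h5.unique (h6.congr_of_eventuallyEq (h7.mono fun y hy => fderiv_tmap hy v)))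
  simp only [ContinuousLinearMap.comp_apply, ContinuousLinearMap.apply_apply] at h8
  rw [h8]
  simp [add_comm, add_left_comm]

/-- the derivative of the action on jets is the action of the tangent map -/
theorem hasDerivAt_jcomp {J : J2 Z} (hΘ : ContDiffAt ℂ 3 Θ J.1.1) (K : J2 Z) :
    HasDerivAt (fun t : ℂ => jcomp Θ (J + t • K)) (jcomp (tmap Θ) (jzip J K)) 0 := by
  have hΘ2 : ContDiffAt ℂ 2 Θ J.1.1 := hΘ.of_le (by norm_num)
  have h1 := hΘ.fderiv_right (m := 2) (by norm_num)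
  have l := hasDerivAt_aff (Z := Z)
  have d0 := hasDerivAt_line (hΘ.differentiableAt (by norm_num)) K.1.1
  have d1 := hasDerivAt_line (h1.differentiableAt two_ne_zero) K.1.1
  have d2 := hasDerivAt_line ((h1.fderiv_right (m := 1) (by norm_num)).differentiableAt
    one_ne_zero) K.1.1
  have e1 : ∀ a b : Z, HasDerivAt (fun t : ℂ => fderiv ℂ Θ (J.1.1 + t • K.1.1) (a + t • b))
      (fderiv ℂ (tmap Θ) (J.1.1, K.1.1) (a, b)) 0 := fun a b => by
    refine (d1.clm_apply (l a b)).congr_deriv ?_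
    rw [fderiv_tmap hΘ2, symm2 hΘ2 a]
    simp
  have e2 : ∀ a b a' b' : Z, HasDerivAt (fun t : ℂ =>
      fderiv ℂ (fderiv ℂ Θ) (J.1.1 + t • K.1.1) (a' + t • b') (a + t • b))
      (fderiv ℂ (fderiv ℂ (tmap Θ)) (J.1.1, K.1.1) (a', b') (a, b)) 0 := fun a b a' b' => by
    refine ((d2.clm_apply (l a' b')).clm_apply (l a b)).congr_deriv ?_
    rw [fderiv_tmap2 hΘ, symm2 hΘ2 a b', symm3b hΘ a' a, symm3a hΘ a']
    simp
  exact (d0.prodMk ((e1 _ _).prodMk (e1 _ _))).prodMk (((e2 _ _ _ _).add (e1 _ _)).prodMk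
    (((e2 _ _ _ _).add (e1 _ _)).prodMk ((e2 _ _ _ _).add (e1 _ _))))

/-- the derivative of the jet of a composition -/
theorem hasDerivAt_cj {D : Type*} [NormedAddCommGroup D] [NormedSpace ℝ D] {d1 d2 : D}
    {g h : D → Z} {x : D} (hΘ : ContDiffAt ℂ 3 Θ (g x)) (hg : ContDiffAt ℝ 2 g x)
    (hh : ContDiffAt ℝ 2 h x) :
    HasDerivAt (fun t : ℂ => jcomp Θ (cj d1 d2 g x + t • cj d1 d2 h x))
      (cj d1 d2 (fun y => fderiv ℂ Θ (g y) (h y)) x) 0 := by
  have := cj_comp (d1 := d1) (d2 := d2) (Θ := tmap Θ) (g := fun y => (g y, h y))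
    (contDiffAt_tmap (n := 2) hΘ) (hg.prodMk hh)
  rw [cj_prod hg hh] at this
  exact this ▸ hasDerivAt_jcomp (J := cj d1 d2 g x) hΘ _

section real
variable [StarAddMonoid Z] [StarModule ℂ Z] [StarAddMonoid W] [StarModule ℂ W] [ContinuousStar W]

lemma star_fderiv {f : Z → W} (hf : DifferentiableAt ℂ f z)
    (hr : ∀ᶠ y in 𝓝 z, star y = y → star (f y) = f y) (hz : star z = z) {v : Z}
    (hv : star v = v) : star (fderiv ℂ f z v) = fderiv ℂ f z v := by
  have l : HasDerivAt (fun t : ℝ => z + (t : ℂ) • v) v 0 := by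
    simpa using ((ofRealCLM.hasDerivAt (x := (0 : ℝ))).smul_const v).const_add z
  have h1 : HasDerivAt (fun t : ℝ => f (z + (t : ℂ) • v)) (fderiv ℂ f z v) 0 :=
    HasFDerivAt.comp_hasDerivAt_of_eq 0 (hf.hasFDerivAt.restrictScalars ℝ) l (by simp)
  have h2 : Tendsto (fun t : ℝ => z + (t : ℂ) • v) (𝓝 0) (𝓝 z) := by
    simpa using l.continuousAt.tendsto
  have h3 := hasDerivAt_iff_tendsto_slope_zero.1 h1
  refine tendsto_nhds_unique ((continuous_star.tendsto _).comp h3) (h3.congr' ?_)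
  have h4 := hr.self_of_nhds hz
  filter_upwards [nhdsWithin_le_nhds (h2.eventually hr)] with t ht
  have h5 := ht (by simp [hz, hv])
  simp only [Function.comp_apply, zero_add, ofReal_zero, zero_smul, add_zero]
  rw [← Complex.coe_smul, star_smul, star_sub, h4, h5]
  simp

theorem star_jcomp {J : J2 Z} (hΘ : ContDiffAt ℂ 2 Θ J.1.1)
    (hr : ∀ y, star y = y → star (Θ y) = Θ y) (hJ : star J = J) :
    star (jcomp Θ J) = jcomp Θ J := by
  obtain ⟨⟨z, a, b⟩, aa, ab, bb⟩ := J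
  simp only [Prod.star_def, Prod.mk.injEq] at hJ
  obtain ⟨⟨hz, ha, hb⟩, haa, hab, hbb⟩ := hJ
  have h0 : ∀ᶠ y in 𝓝 z, DifferentiableAt ℂ Θ y := by
    filter_upwards [hΘ.eventually (by simp)] with y hy using hy.differentiableAt two_ne_zero
  have h1 : ∀ {v}, star v = v → star (fderiv ℂ Θ z v) = fderiv ℂ Θ z v := fun hv =>
    star_fderiv h0.self_of_nhds (Eventually.of_forall hr) hz hv
  have h2 : DifferentiableAt ℂ (fderiv ℂ Θ) z :=
    (hΘ.fderiv_right (m := 1) (by norm_num)).differentiableAt one_ne_zero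
  have h3 : ∀ {v v'}, star v = v → star v' = v' →
      star (fderiv ℂ (fderiv ℂ Θ) z v' v) = fderiv ℂ (fderiv ℂ Θ) z v' v := fun {v v'} hv hv' => by
    have k := (ContinuousLinearMap.apply ℂ W v).hasFDerivAt.comp z h2.hasFDerivAt
    have := star_fderiv k.differentiableAt (h0.mono fun y hy hy' =>
      star_fderiv hy (Eventually.of_forall hr) hy' hv) hz hv'
    rwa [k.fderiv] at this
  simp only [jcomp, Prod.star_def, star_add, hr z hz, h1 ha, h1 hb, h1 haa, h1 hab, h1 hbb,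
    h3 ha ha, h3 ha hb, h3 hb hb]

end real

end Vale.Agent.P218OP
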