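import Vale.Agent.P218OP.Phi
import Vale.Agent.P218ND.Brg4

/-! The geometric operator in charts. -/

open Set Filter Topology Complex
open scoped ContDiff Matrix RealInnerProductSpace

noncomputable section

set_option linter.unusedSectionVars false
set_option synthInstance.maxSize 2048

namespace Vale.Agent.P218OP

open Vale.Agent.P218VA Vale.Agent.P218CO Vale.Agent.P218XI Vale.Agent.P218MP Vale.Agent.P218ND
open Vale.Agent.P272.K.LIN (RSm)
open Vale.Agent.P218GA (E3 Model cx cx_dot crs cx_crs grm lagR wt_cx ar_cx cx_PP pd_cx crs_par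
  sq_inner_crs)
open Vale.Agent.P218.H313 (rho rho_pos)

lemma eq_cx {v : C3} (h : star v = v) : v = cx (reV v) := by
  ext i
  exact (conj_eq_iff_re.1 (congrFun h i)).symm

lemma im_ELj {J : J2 C3} {V : C3} (hJ : star J = J) (hV : star V = V) : (ELj J V).im = 0 := by
  obtain ⟨⟨X, a, b⟩, aa, ab, bb⟩ := J
  simp only [Prod.star_def, Prod.mk.injEq] at hJ
  obtain ⟨⟨h1, h2, h3⟩, h4, h5, h6⟩ := hJ
  rw [eq_cx h1, eq_cx h2, eq_cx h3, eq_cx h4, eq_cx h5, eq_cx h6, eq_cx hV]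
  simp only [ELj, EL, wt_cx, ar_cx, cx_PP, ← cx_crs, cx_dot]
  norm_cast

lemma star_cj {D V : Type*} [NormedAddCommGroup D] [NormedSpace ℝ D] [NormedAddCommGroup V]
    [NormedSpace ℝ V] [StarAddMonoid V] [StarModule ℝ V] [ContinuousStar V] {f : D → V} {y : D}
    {d1 d2 : D} (hf : ContDiffAt ℝ 2 f y) (h : ∀ᶠ z in 𝓝 y, star (f z) = f z) :
    star (cj d1 d2 f y) = cj d1 d2 f y := by
  have h1 := cj_clm (d1 := d1) (d2 := d2) ((starL' ℝ : V ≃L[ℝ] V) : V →L[ℝ] V) hf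
  exact h1.symm.trans (cj_congr (g := f) h)

variable {S : Set E3} {w : E3 → ℝ} {δ C : ℝ} {ι κ M : Type} [TopologicalSpace M]
  [ChartedSpace E2 M] [Fintype ι] [Fintype κ] (m : Model S w δ C ι κ M) (ε : ι ⊕ κ → Bool) (a : ℝ)

/-- the jet of the argument of the universal map -/
def jz (e : OpenPartialHomeomorph M E2) (y : E2) (ξ : J2 ℂ × (ι × Fin 2 → ℂ)) :
    J2 (Co (ι × Fin 2) × ℂ × (ι × Fin 2 → ℂ)) :=
  jzip (cj u1 u2 (cX e (coef m ε a)) y) (jzip ξ.1 (jconst ξ.2))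

/-- the geometric operator on jets -/
def Nj (e : OpenPartialHomeomorph M E2) (y : E2) (ξ : J2 ℂ × (ι × Fin 2 → ℂ)) : ℂ :=
  -ELj (jcomp Th (jz m ε a e y ξ)) (ThU (jz m ε a e y ξ).1.1) *
    (LagF u1 u2 (cX e fun z => cx (m.F z)) y)⁻¹

/-- the normal component of the derivative in `U` -/
def th (x : M) : ℝ := (cx (m.nu x) ⬝ᵥ Tv m ε a x 0 0).re

/-- the normal component of the infinitesimal tilt -/
def tlc (B : ι × Fin 2 → ℂ) (x : M) : ℂ := cx (m.nu x) ⬝ᵥ om (coef m ε a x) B ⨯₃ cx (m.F x)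

variable {m ε a} {e : OpenPartialHomeomorph M E2} {x : M} {U : M → ℂ} {B : ι × Fin 2 → ℂ}

lemma Tv_zero (hx : x ∈ m.reg) : Tv m ε a x 0 0 = XU (coef m ε a x) 0 := by
  simp [Tv_eq hx, ThU]

lemma star_z (hx : x ∈ m.reg) {u : ℂ} (hu : star u = u) (hB : star B = B) :
    star (coef m ε a x, u, B) = (coef m ε a x, u, B) := by
  simp only [Prod.star_def, star_coef hx, hu, hB]

lemma th_eq (hx : x ∈ m.reg) : cx (m.nu x) ⬝ᵥ Tv m ε a x 0 0 = (th m ε a x : ℝ) :=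
  (conj_eq_iff_re.1 (by
    rw [← RCLike.star_def, star_dot, star_cx, Tv_eq hx,
      star_ThU (star_z hx (star_zero _) (star_zero _))])).symm

lemma nu_dot (hx : x ∈ m.reg) : cx (m.nu x) ⬝ᵥ cx (m.nu x) = 1 := by
  rw [cx_dot, real_inner_self_eq_norm_sq, m.norm_nu hx]
  simp

lemma th_below (hx : x ∈ (ends m).below a) : th m ε a x = 1 := by
  have h := Ends.below_reg hx
  rw [th, Tv_zero h, XU_below hx, nu_dot h, one_re]

lemma tlc_below (hx : x ∈ (ends m).below (a + 1)) : tlc m ε a B x = 0 := by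
  simp [tlc, om_below hx]

lemma th_Y {j : ι ⊕ κ} {p : ℝ × ℝ} (hp : m.w0 < p.1) (h : a ≤ p.1) :
    th m ε a ((ends m).Y j p) =
      1 - st a p.1 + st a p.1 * (cx (m.nu ((ends m).Y j p)) ⬝ᵥ TE m ε j p 0 0).re := by
  have h1 : (ends m).Y j p ∈ m.reg := m.pol_mem_reg j hp
  have h2 : omE m 0 j = 0 := by simpa using omE_smul (m := m) (B := 0) 0 j
  rw [th, Tv_zero h1, XU_Y hp h, TE_eq, h2, rot_zero, mul_smul, dotProduct_add, dotProduct_smul,
    dotProduct_smul, nu_dot h1]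
  simp

lemma th_pos (ho : Orient m ε a) (hx : x ∈ m.reg) : 0 < th m ε a x := by
  rcases reg_cases (𝓔 := ends m) hx a with h | ⟨j, p, hp, h, rfl⟩
  · rw [th_below h]; exact one_pos
  · rw [th_Y hp h]
    have h1 := ho j p h
    have h2 := st_le_one a p.1
    rcases (st_nonneg a p.1).eq_or_lt with h3 | h3
    · rw [← h3]; norm_num
    · nlinarith [mul_pos h3 h1]

variable [T2Space M] [RSm E2 M] [CompactSpace M]

lemma surf_ev (hx : x ∈ m.reg) : surf m ε a U B =ᶠ[𝓝 x] fun z => Th (coef m ε a z, U z, B) :=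
  (ev_reg m hx).mono fun _ hz => Phi_eq hz

lemma cd_arg (ha : m.w0 + 1 < a) {k : WithTop ℕ∞} (hk : k ≤ ∞) (hx : x ∈ m.reg)
    (hU : CkAt k U x) : CkAt k (fun z => (coef m ε a z, U z, B)) x :=
  CkAt.prod ((ckAt_coef ha hx).of_le hk) (CkAt.prod hU fun _ _ _ => contDiffAt_const)

theorem ckAt_surf (ha : m.w0 + 1 < a) {k : WithTop ℕ∞} (hk : k ≤ ∞) (hx : x ∈ m.reg)
    (hU : CkAt k U x) (hu : ‖U x‖ < 1) (hB : ‖B‖ < 1) : CkAt k (surf m ε a U B) x := by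
  refine CkAt.congr (fun e he hxe => ?_) (surf_ev hx)
  refine ContDiffAt.comp (g := Th) (e x) ?_ (cd_arg ha hk hx hU e he hxe)
  rw [e.left_inv hxe]
  exact (ok_coef hx hu hB).cd_Th.restrict_scalars ℝ

lemma cj_arg (ha : m.w0 + 1 < a) (he : e ∈ atlas E2 M) (hxe : x ∈ e.source) (hx : x ∈ m.reg)
    (hU : CkAt 2 U x) : cj u1 u2 (cX e fun z => (coef m ε a z, U z, B)) (e x) =
      jz m ε a e (e x) (cj u1 u2 (cX e U) (e x), B) := by
  rw [jz, ← cj_const (d1 := u1) (d2 := u2) (x := e x), ← cj_prod (hU e he hxe) contDiffAt_const,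
    ← cj_prod ((ckAt_coef ha hx).of_le two_le_inf e he hxe) ((hU e he hxe).prodMk contDiffAt_const)]
  rfl

lemma jz_fst (hxe : x ∈ e.source) (ξ : J2 ℂ × (ι × Fin 2 → ℂ)) :
    (jz m ε a e (e x) ξ).1.1 = (coef m ε a x, ξ.1.1.1, ξ.2) := by
  simp [jz, jzip, jconst, cj, cX_self _ hxe]

theorem cj_surf (ha : m.w0 + 1 < a) (he : e ∈ atlas E2 M) (hxe : x ∈ e.source) (hx : x ∈ m.reg)
    (hU : CkAt 2 U x) (hu : ‖U x‖ < 1) (hB : ‖B‖ < 1) : cj u1 u2 (cX e (surf m ε a U B)) (e x) =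
      jcomp Th (jz m ε a e (e x) (cj u1 u2 (cX e U) (e x), B)) := by
  rw [cj_congr (cX_congr hxe (surf_ev hx)), ← cj_arg ha he hxe hx hU]
  refine cj_comp (g := cX e fun z => (coef m ε a z, U z, B)) ?_ (cd_arg ha two_le_inf hx hU e he hxe)
  rw [cX_self _ hxe]
  exact (ok_coef hx hu hB).cd_Th

lemma jcomp_zero (ha : m.w0 + 1 < a) (he : e ∈ atlas E2 M) (hxe : x ∈ e.source) (hx : x ∈ m.reg) :
    jcomp Th (jz m ε a e (e x) 0) = cj u1 u2 (cX e fun z => cx (m.F z)) (e x) := by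
  have h := cj_surf (ε := ε) (U := fun _ => 0) (B := 0) ha he hxe hx
    (fun _ _ _ => contDiffAt_const) (by simp) (by simp)
  rw [show cj u1 u2 (cX e fun _ : M => (0 : ℂ)) (e x) = 0 from cj_zero] at h
  refine h.symm.trans (cj_congr (cX_congr hxe ?_))
  filter_upwards [surf_ev (ε := ε) (a := a) (U := fun _ => 0) (B := 0) hx, ev_reg m hx] with z h1 h2
  simp [h1, Th, X0_zero h2]

theorem Nj_chart (ha : m.w0 + 1 < a) (he : e ∈ atlas E2 M) (hxe : x ∈ e.source) (hx : x ∈ m.reg)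
    (hU : CkAt 2 U x) (hu : ‖U x‖ < 1) (hB : ‖B‖ < 1) :
    geoN m ε a U B x = Nj m ε a e (e x) (cj u1 u2 (cX e U) (e x), B) := by
  have h := ELM_chart (m.rimm.imm hx) (ckAt_surf (ε := ε) ha two_le_inf hx hU hu hB) he hxe
    (Tv m ε a x (U x) B)
  rw [Nj, ← cj_surf ha he hxe hx hU hu hB, ← ELF_eq, jz_fst hxe, geoN,
    show (cj u1 u2 (cX e U) (e x), B).1.1.1 = U x from cX_self _ hxe, ← Tv_eq hx, ← h, ← neg_mul,
    mul_inv_cancel_right₀ ((m.rimm.imm hx).lag_ne he hxe)]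

lemma ok_jz (hxe : x ∈ e.source) (hx : x ∈ m.reg) : Ok (jz m ε a e (e x) 0).1.1 := by
  rw [jz_fst hxe]
  exact ok_coef hx (by simp) (by simp)

lemma slit_jz (ha : m.w0 + 1 < a) (he : e ∈ atlas E2 M) (hxe : x ∈ e.source) (hx : x ∈ m.reg) :
    gramj (jcomp Th (jz m ε a e (e x) 0)) ∈ slitPlane := by
  rw [jcomp_zero ha he hxe hx]
  exact (m.rimm.imm hx).slit e he hxe

lemma PPj_jz (ha : m.w0 + 1 < a) (he : e ∈ atlas E2 M) (hxe : x ∈ e.source) (hx : x ∈ m.reg) :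
    PPj (jcomp Th (jz m ε a e (e x) 0)) = 0 := by
  rw [jcomp_zero ha he hxe hx]
  exact m.PPF_chart he hx hxe

theorem Nj_mix (ha : m.w0 + 1 < a) (he : e ∈ atlas E2 M) (hxe : x ∈ e.source) (hx : x ∈ m.reg) :
    Mix (fun q : E2 × (J2 ℂ × (ι × Fin 2 → ℂ)) => Nj m ε a e q.1 q.2) (e x, 0) := by
  have h1 : ContDiffAt ℝ 1 (cj u1 u2 (cX e (coef m ε a))) (e x) :=
    contDiffAt_cj (n := 1) ((ckAt_coef ha hx e he hxe).of_le (by
      rw [show (1 : WithTop ℕ∞) + 2 = (3 : ℕ∞) by norm_num]; exact_mod_cast le_top))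
  have h2 : Mix (fun q : E2 × (J2 ℂ × (ι × Fin 2 → ℂ)) => jz m ε a e q.1 q.2) (e x, 0) :=
    ((Mix.fst (p := (e x, (0 : J2 ℂ × (ι × Fin 2 → ℂ)))) h1).prodMk Mix.snd).comp
      (Θ := fun z => jzip z.1 (jzip z.2.1 (jconst z.2.2))) (by unfold jzip jconst; fun_prop)
  have h3 : ContDiffAt ℂ 1 (jcomp Th) (jz m ε a e (e x) 0) := contDiffAt_jcomp (ok_jz hxe hx).cd_Th
  have h4 : ContDiffAt ℂ 1 (fun J => -ELj (jcomp Th J) (ThU J.1.1)) (jz m ε a e (e x) 0) :=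
    (contDiffAt_EL h3.fst.fst h3.fst.snd.fst h3.fst.snd.snd h3.snd.fst h3.snd.snd.fst
      h3.snd.snd.snd (ContDiffAt.comp (g := ThU) _ (ok_jz hxe hx).cd_ThU (by fun_prop)) (slit_jz ha he hxe hx)).neg
  have h5 : ContDiffAt ℝ 2 (cX e fun z => cx (m.F z)) (e x) := (m.rimm.imm hx).ck e he hxe
  exact (h2.comp h4).mul (Mix.fst (c := fun y => (LagF u1 u2 (cX e fun z => cx (m.F z)) y)⁻¹)
    (contDiffAt_cinv (contDiffAt_Lag (h5.of_le one_le_two) (contDiffAt_pd h5 (by norm_num) _)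
      (contDiffAt_pd h5 (by norm_num) _) ((m.rimm.imm hx).slit e he hxe))
      ((m.rimm.imm hx).lag_ne he hxe)))

theorem Nj_base (ha : m.w0 + 1 < a) (he : e ∈ atlas E2 M) (hxe : x ∈ e.source) (hx : x ∈ m.reg) :
    Nj m ε a e (e x) 0 = 0 := by
  rw [Nj, ELj, EL_of_PP (PPj_jz ha he hxe hx), neg_zero, zero_mul]

theorem Nj_real (ha : m.w0 + 1 < a) (he : e ∈ atlas E2 M) (hxe : x ∈ e.source) (hx : x ∈ m.reg)
    {ξ : J2 ℂ × (ι × Fin 2 → ℂ)} (hξ : star ξ = ξ) : (Nj m ε a e (e x) ξ).im = 0 := by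
  have h1 := star_cj (d1 := u1) (d2 := u2) ((ckAt_coef (ε := ε) ha hx).of_le two_le_inf e he hxe)
    (((P218VA.tendsto_symm hxe).eventually (ev_reg m hx)).mono fun y hy => star_coef hy)
  have h2 : star (jz m ε a e (e x) ξ) = jz m ε a e (e x) ξ := by
    conv_rhs => rw [jz, ← h1, ← hξ]
    simp [jz, jzip, jconst, Prod.star_def]
  have h3 : star (jz m ε a e (e x) ξ).1.1 = (jz m ε a e (e x) ξ).1.1 := congrArg (·.1.1) h2
  have h4 := im_ELj (star_jcomp (ok_of_real h3).cd_Th (fun _ => star_Th) h2) (star_ThU h3)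
  rw [Nj, m.rimm.lag hx he hxe, ← ofReal_inv, mul_comm, im_ofReal_mul, neg_im, h4]
  simp

lemma cross_chart (he : e ∈ atlas E2 M) (hxe : x ∈ e.source) (hx : x ∈ m.reg) :
    ∃ c : ℝ, c ≠ 0 ∧ cx (pd (cX e m.F) u1 (e x)) ⨯₃ cx (pd (cX e m.F) u2 (e x))
      = (c : ℂ) • cx (m.nu x) := by
  have h1 := m.inner_nu_pd he hx hxe
  refine ⟨_, fun h => ?_, by
    rw [← cx_crs, crs_par (m.norm_nu hx) (h1 _) (h1 _), map_smul, Complex.coe_smul]⟩
  have := sq_inner_crs (m.norm_nu hx) (h1 u1) (h1 u2)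
  rw [h] at this
  linarith [grm_chart m he hx hxe]

theorem Nj_ell (ha : m.w0 + 1 < a) (ho : Orient m ε a) (he : e ∈ atlas E2 M) (hxe : x ∈ e.source)
    (hx : x ∈ m.reg) {r s : ℝ} (hrs : (r, s) ≠ 0) : 0 < (fderiv ℂ (Nj m ε a e (e x)) 0
      ((0, ((r * r : ℝ), (r * s : ℝ), (s * s : ℝ))), 0)).re := by
  set Z := Tv m ε a x 0 0 with hZ
  have h0 : 1 + tt (coef m ε a x) 0 ^ 2 ≠ 0 := (ok_coef (B := 0) hx (by simp) (by simp)).1
  have h1 : ∀ (t : ℂ) (h : T3 ℂ), jcomp Th (jz m ε a e (e x) (0 + t • ((0, h), 0))) =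
      jcomp Th (jz m ε a e (e x) 0) + t • (0, (h.1 • Z, h.2.1 • Z, h.2.2 • Z)) := fun t h => by
    have k : ∀ (c : Co (ι × Fin 2)) (u : ℂ), fderiv ℂ Th (coef m ε a x, 0, 0) (c, u, 0) =
        fderiv ℂ Th (coef m ε a x, 0, 0) (c, 0, 0) + u • Z := fun c u => by
      rw [hZ, Tv_zero hx, ← add_zero (u • _), ← LinearMap.map_zero₂ crossProduct (X0 _ 0),
        ← om_zero (coef m ε a x), ← fderiv_Th h0, ← map_add]
      simp
    simp [jcomp, jz, jzip, jconst, cj, cX_self _ hxe, k _ (t * _), add_assoc, smul_smul]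
  have h2 := fun h : T3 ℂ => ((hasDerivAt_ELj (t := (0 : ℂ)) (hasDerivAt_aff
    (jcomp Th (jz m ε a e (e x) 0)) (0, (h.1 • Z, h.2.1 • Z, h.2.2 • Z))) (hasDerivAt_const _ Z)
    (by simpa using slit_jz ha he hxe hx) (by simpa using PPj_jz ha he hxe hx)).neg).mul_const
    (LagF u1 u2 (cX e fun z => cx (m.F z)) (e x))⁻¹
  rw [fderiv_line (Nj_mix ha he hxe hx).hol.self_of_nhds
    ((h2 ((r * r : ℝ), (r * s : ℝ), (s * s : ℝ))).congr_of_eventuallyEq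
    (Eventually.of_forall fun t => by
      simp only [Nj, h1, jz_fst hxe]
      simp [hZ, Tv_eq hx]))]
  obtain ⟨c, hc, h3⟩ := cross_chart he hxe hx
  have h4 := (m.rimm.ck x hx e he hxe).differentiableAt two_ne_zero
  have h5 : ∀ v, pd (cX e fun z => cx (m.F z)) v (e x) = cx (pd (cX e m.F) v (e x)) := pd_cx h4
  have h6 : cx (m.nu x) ⬝ᵥ Z = _ := th_eq hx
  have h7 := grm_chart m he hx hxe
  have h8 := m.rimm.lag_pos hx he hxe
  have h9 := th_pos ho hx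
  rw [zero_smul, add_zero, jcomp_zero ha he hxe hx, m.rimm.lag hx he hxe]
  simp only [dPPj, dPP, cj, h5, cX_self _ hxe, h3, wt_cx, ar_cx, dotProduct_zero, zero_dotProduct,
    map_zero, LinearMap.zero_apply, Prod.fst_zero, Prod.snd_zero, smul_dotProduct, dotProduct_smul,
    cx_dot, dotProduct_comm Z, h6, smul_eq_mul, add_zero, mul_zero, zero_mul, zero_add, sub_zero,
    zero_div, neg_neg]
  generalize pd (cX e m.F) u1 (e x) = p at h7 ⊢
  generalize pd (cX e m.F) u2 (e x) = q at h7 ⊢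
  norm_cast
  have k1 : 0 < ⟪q, q⟫ * (r * r) - 2 * ⟪p, q⟫ * (r * s) + ⟪p, p⟫ * (s * s) := by
    rw [grm] at h7
    have k2 : 0 < ⟪q, q⟫ := real_inner_self_nonneg.lt_of_ne fun h => by
      rw [← h] at h7; nlinarith [sq_nonneg ⟪p, q⟫]
    rcases eq_or_ne s 0 with rfl | hs
    · have : r ≠ 0 := fun h => hrs (by simp [h])
      simpa using mul_pos k2 (mul_self_pos.2 this)
    · refine (mul_pos_iff_of_pos_left k2).1 ?_
      nlinarith [sq_nonneg (⟪q, q⟫ * r - ⟪p, q⟫ * s), mul_pos h7 (mul_self_pos.2 hs)]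
  have k3 := Real.sqrt_pos.2 h7
  have k4 := rho_pos (m.F x)
  have k5 := mul_self_pos.2 hc
  refine lt_of_lt_of_eq (by positivity : 0 < rho (m.F x) * (⟪q, q⟫ * (r * r) - 2 * ⟪p, q⟫ * (r * s)
    + ⟪p, p⟫ * (s * s)) / √(grm p q) ^ 3 * (c * c) * th m ε a x ^ 2 *
      (lagR u1 u2 (cX e m.F) (e x))⁻¹) ?_
  ring

/-- the hypotheses on the geometric operator follow from those which concern the ends -/
theorem good_of (ha : m.w0 + 1 < a) (ho : Orient m ε a) {op : ι ⊕ κ → EndOp}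
    {G : ι ⊕ κ → ℝ × ℝ → T3 ℂ → ℂ} {s : ℝ} (hs : m.w0 < s)
    (h1 : ∀ j (p : ℝ × ℝ), s + 2 ≤ p.1 → ∀ U B, CkAt 2 U ((ends m).Y j p) →
      ‖U ((ends m).Y j p)‖ < 1 → ‖B‖ < 1 → geoN m ε a U B ((ends m).Y j p) =
        G j p (pj (fun q => U ((ends m).Y j q)) p).1 *
          ((op j).orient (ε j)).E p (pj (fun q => U ((ends m).Y j q)) p))
    (h2 : ∀ j (p : ℝ × ℝ), s + 2 ≤ p.1 →
      ContinuousAt (fun q : (ℝ × ℝ) × T3 ℂ => G j q.1 q.2) (p, 0))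
    (h3 : ∀ j (p : ℝ × ℝ), s + 2 ≤ p.1 → 0 < (G j p 0).re)
    (h4 : ∀ j, ((op j).orient (ε j)).Good s) : (geoOp m ε a op (Nj m ε a) G).Good s :=
  ⟨hs, fun _ he _ hxe hx _ _ hU hu hB => Nj_chart ha he hxe hx hU hu hB,
    fun _ he _ hxe hx => Nj_mix ha he hxe hx, fun _ he _ hxe hx => Nj_base ha he hxe hx,
    fun _ he _ hxe hx _ hξ => Nj_real ha he hxe hx hξ,
    fun _ he _ hxe hx _ _ h => Nj_ell ha ho he hxe hx h, h1, h2, h3, h4⟩

end Vale.Agent.P218OP
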